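import Vale.Agent.P237.Alm.Defs

/-!
# P237, almost Petty: one-sided calculus of even concave profiles
-/

open MeasureTheory Metric Set Module Filter
open scoped Topology

namespace Vale.Agent.P237.Alm

open AllN

/-- The right derivative. -/
noncomputable def rd (r : ℝ → ℝ) (y : ℝ) : ℝ := derivWithin r (Ioi y) y

variable {r : ℝ → ℝ} (hr : IsProf r)

include hr

theorem prof_cont : ContinuousOn r (Ioo (-1) 1) := by
  have := hr.conc.continuousOn_interior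
  rwa [interior_Icc] at this

theorem prof_contAt {y : ℝ} (hy : y ∈ Ioo (-1 : ℝ) 1) : ContinuousAt r y :=
  (prof_cont hr).continuousAt (isOpen_Ioo.mem_nhds hy)

theorem prof_anti : AntitoneOn r (Icc 0 1) := by
  intro x hx y hy hxy
  rcases eq_or_lt_of_le hxy with h | h
  · rw [h]
  have hy0 : 0 < y := lt_of_le_of_lt hx.1 h
  have m1 : y ∈ Icc (-1 : ℝ) 1 := ⟨by linarith [hy.1], hy.2⟩
  have m2 : -y ∈ Icc (-1 : ℝ) 1 := ⟨by linarith [hy.2], by linarith [hy.1]⟩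
  have p1 : 0 ≤ (x / y + 1) / 2 := by have := div_nonneg hx.1 hy0.le; linarith
  have p2 : 0 ≤ 1 - (x / y + 1) / 2 := by have := (div_le_one hy0).2 hxy; linarith
  have h1 := hr.conc.2 m1 m2 p1 p2 (by ring)
  simp only [smul_eq_mul, hr.even] at h1
  have e : (x / y + 1) / 2 * y + (1 - (x / y + 1) / 2) * -y = x := by
    field_simp
    ring
  rw [e] at h1
  linarith

theorem rd_has {y : ℝ} (hy : y ∈ Ioo (-1 : ℝ) 1) : HasDerivWithinAt r (rd r y) (Ioi y) y := by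
  have h1 := hr.conc.neg.differentiableWithinAt_Ioi_of_mem_interior (x := y)
    (by rw [interior_Icc]; exact hy)
  have h2 : DifferentiableWithinAt ℝ r (Ioi y) y := by
    have := h1.neg
    simpa using this
  exact h2.hasDerivWithinAt

theorem rd_anti : AntitoneOn (rd r) (Ioo (-1) 1) := by
  have h1 := hr.conc.neg.monotoneOn_rightDeriv
  rw [interior_Icc] at h1
  intro x hx y hy hxy
  have h2 := h1 hx hy hxy
  simp only at h2
  have h3 : ∀ z, derivWithin (-r) (Ioi z) z = -rd r z := fun z => derivWithin.neg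
  rw [h3, h3] at h2
  linarith

theorem rd_nonpos {y : ℝ} (hy : y ∈ Ico (0 : ℝ) 1) : rd r y ≤ 0 := by
  have h1 := rd_has hr (y := y) ⟨by linarith [hy.1], hy.2⟩
  rw [hasDerivWithinAt_iff_tendsto_slope' self_notMem_Ioi] at h1
  refine le_of_tendsto h1 ?_
  have h2 : Ioo y 1 ∈ 𝓝[>] y := Ioo_mem_nhdsGT hy.2
  filter_upwards [h2] with z hz
  rw [slope_def_field]
  have m1 : y ∈ Icc (0 : ℝ) 1 := ⟨hy.1, hy.2.le⟩
  have m2 : z ∈ Icc (0 : ℝ) 1 := ⟨hy.1.trans hz.1.le, hz.2.le⟩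
  have h3 := prof_anti hr m1 m2 hz.1.le
  exact div_nonpos_of_nonpos_of_nonneg (by linarith) (by linarith [hz.1])

theorem prof_pos' {y : ℝ} (hy : y ∈ Ico (0 : ℝ) 1) : 0 < r y := hr.pos y ⟨by linarith [hy.1], hy.2⟩

theorem prof_nn {y : ℝ} (hy : y ∈ Icc (0 : ℝ) 1) : 0 ≤ r y := by
  rcases eq_or_lt_of_le hy.2 with h | h
  · rw [h]; exact hr.nonneg
  · exact (prof_pos' hr ⟨hy.1, h⟩).le

theorem prof_le_zero {y : ℝ} (hy : y ∈ Icc (0 : ℝ) 1) : r y ≤ r 0 :=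
  prof_anti hr (⟨le_rfl, zero_le_one⟩ : (0 : ℝ) ∈ Icc (0 : ℝ) 1) hy hy.1

/-- powers of the profile are interval integrable -/
theorem prof_pow_ii (k : ℕ) {a b : ℝ} (ha : a ∈ Icc (0 : ℝ) 1) (hb : b ∈ Icc (0 : ℝ) 1) :
    IntervalIntegrable (fun y => r y ^ k) volume a b := by
  apply AntitoneOn.intervalIntegrable
  intro x hx y hy hxy
  have hsub : uIcc a b ⊆ Icc 0 1 := by
    intro z hz
    rcases le_total a b with h | h
    · rw [uIcc_of_le h] at hz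
      exact ⟨ha.1.trans hz.1, hz.2.trans hb.2⟩
    · rw [uIcc_of_ge h] at hz
      exact ⟨hb.1.trans hz.1, hz.2.trans ha.2⟩
  exact pow_le_pow_left₀ (prof_nn hr (hsub hy)) (prof_anti hr (hsub hx) (hsub hy) hxy) k

theorem rd_ii {a b : ℝ} (ha : a ∈ Ico (0 : ℝ) 1) (hb : b ∈ Ico (0 : ℝ) 1) :
    IntervalIntegrable (rd r) volume a b := by
  apply AntitoneOn.intervalIntegrable
  intro x hx y hy hxy
  have hsub : uIcc a b ⊆ Ioo (-1) 1 := by
    intro z hz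
    rcases le_total a b with h | h
    · rw [uIcc_of_le h] at hz
      exact ⟨by linarith [ha.1, hz.1], by linarith [hb.2, hz.2]⟩
    · rw [uIcc_of_ge h] at hz
      exact ⟨by linarith [hb.1, hz.1], by linarith [ha.2, hz.2]⟩
  exact rd_anti hr (hsub hx) (hsub hy) hxy

/-- right derivative of powers -/
theorem pow_rd {y : ℝ} (hy : y ∈ Ioo (-1 : ℝ) 1) (k : ℕ) :
    HasDerivWithinAt (fun y => r y ^ k) ((k : ℝ) * r y ^ (k - 1) * rd r y) (Ioi y) y :=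
  (rd_has hr hy).pow k

/-- The limit value at the right end point. -/
theorem exists_limit : ∃ r1 : ℝ, 0 ≤ r1 ∧ (∀ y ∈ Ico (0 : ℝ) 1, r1 ≤ r y) ∧
    Tendsto r (𝓝[<] 1) (𝓝 r1) := by
  refine ⟨sInf (r '' Ico 0 1), ?_, ?_, ?_⟩
  · have hne : (r '' Ico (0 : ℝ) 1).Nonempty := ⟨r 0, 0, ⟨le_rfl, zero_lt_one⟩, rfl⟩
    refine le_csInf hne ?_
    rintro _ ⟨y, hy, rfl⟩
    exact (prof_pos' hr hy).le
  · intro y hy
    refine csInf_le ⟨0, ?_⟩ ⟨y, hy, rfl⟩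
    rintro _ ⟨z, hz, rfl⟩
    exact (prof_pos' hr hz).le
  · have hb : BddBelow (r '' Ico 0 1) := by
      refine ⟨0, ?_⟩
      rintro _ ⟨z, hz, rfl⟩
      exact (prof_pos' hr hz).le
    rw [Metric.tendsto_nhds]
    intro ε hε
    have hne : (r '' Ico (0 : ℝ) 1).Nonempty := ⟨r 0, 0, ⟨le_rfl, zero_lt_one⟩, rfl⟩
    obtain ⟨_, ⟨z, hz, rfl⟩, hlt⟩ := exists_lt_of_csInf_lt hne
      (lt_add_of_pos_right (sInf (r '' Ico 0 1)) hε)
    filter_upwards [Ioo_mem_nhdsLT hz.2] with y hy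
    have hy0 : y ∈ Ico (0 : ℝ) 1 := ⟨hz.1.trans hy.1.le, hy.2⟩
    have h1 : sInf (r '' Ico 0 1) ≤ r y := csInf_le hb ⟨y, hy0, rfl⟩
    have m1 : z ∈ Icc (0 : ℝ) 1 := ⟨hz.1, hz.2.le⟩
    have m2 : y ∈ Icc (0 : ℝ) 1 := ⟨hy0.1, hy0.2.le⟩
    have h2 : r y ≤ r z := prof_anti hr m1 m2 hy.1.le
    rw [Real.dist_eq, abs_of_nonneg (by linarith)]
    linarith

end Vale.Agent.P237.Alm
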