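import Vale.Agent.P237.Alm.Defs

/-!
# P237, almost Petty in all dimensions: a direction with small Fisher type functional
-/

open MeasureTheory Metric Set Module

namespace Vale.Agent.P237.Exch

section

variable {E : Type*} [NormedAddCommGroup E] [NormedSpace ℝ E]

theorem fsh_gr_add (v w x : E) : gr (v + w) x = gr v x + gr w x := by
  unfold gr
  rw [map_add]

theorem fsh_gr_smul (c : ℝ) (v x : E) : gr (c • v) x = c * gr v x := by
  unfold gr
  rw [map_smul, smul_eq_mul]

theorem fsh_gr_sum {ι : Type*} (s : Finset ι) (a : ι → ℝ) (b : ι → E) (x : E) :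
    gr (∑ i ∈ s, a i • b i) x = ∑ i ∈ s, a i * gr (b i) x := by
  unfold gr
  rw [map_sum]
  exact Finset.sum_congr rfl fun i _ => by rw [map_smul, smul_eq_mul]

end

variable {E : Type*} [NormedAddCommGroup E] [NormedSpace ℝ E] [FiniteDimensional ℝ E]
  [MeasurableSpace E] [BorelSpace E] [Nontrivial E] (μ : Measure E) [μ.IsAddHaarMeasure]

omit [Nontrivial E] in
theorem fsh_meas (v : E) : Measurable fun z : sphere (0 : E) 1 => gr v z :=
  (measurable_gr v).comp measurable_subtype_coe

theorem fsh_int (v w : E) :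
    Integrable (fun z : sphere (0 : E) 1 => gr v z * gr w z) μ.toSphere := by
  refine integrable_sphere μ ((fsh_meas v).mul (fsh_meas w)) (C := ‖v‖ * ‖w‖) fun z => ?_
  rw [abs_mul]
  exact mul_le_mul (abs_gr_le v _) (abs_gr_le w _) (abs_nonneg _) (norm_nonneg _)

/-- the quadratic form of the gradients -/
noncomputable def fshM : E →ₗ[ℝ] E →ₗ[ℝ] ℝ :=
  LinearMap.mk₂ ℝ (fun v w => ∫ z : sphere (0 : E) 1, gr v z * gr w z ∂μ.toSphere)
    (by
      intro v v' w
      rw [← integral_add (fsh_int μ v w) (fsh_int μ v' w)]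
      refine integral_congr_ae (Filter.Eventually.of_forall fun z => ?_)
      beta_reduce
      rw [fsh_gr_add, add_mul])
    (by
      intro c v w
      rw [smul_eq_mul, ← integral_const_mul]
      refine integral_congr_ae (Filter.Eventually.of_forall fun z => ?_)
      beta_reduce
      rw [fsh_gr_smul, mul_assoc])
    (by
      intro v w w'
      rw [← integral_add (fsh_int μ v w) (fsh_int μ v w')]
      refine integral_congr_ae (Filter.Eventually.of_forall fun z => ?_)
      beta_reduce
      rw [fsh_gr_add, mul_add])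
    (by
      intro c v w
      rw [smul_eq_mul, ← integral_const_mul]
      refine integral_congr_ae (Filter.Eventually.of_forall fun z => ?_)
      beta_reduce
      rw [fsh_gr_smul]
      ring)

theorem fshM_apply (v w : E) :
    fshM μ v w = ∫ z : sphere (0 : E) 1, gr v z * gr w z ∂μ.toSphere := rfl

theorem fshM_symm (v w : E) : fshM μ v w = fshM μ w v := by
  rw [fshM_apply, fshM_apply]
  refine integral_congr_ae (Filter.Eventually.of_forall fun z => ?_)
  beta_reduce
  ring

theorem fshM_nonneg (v : E) : 0 ≤ fshM μ v v := by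
  rw [fshM_apply]
  exact integral_nonneg fun z => mul_self_nonneg _

theorem fshM_pos (hd : 2 ≤ finrank ℝ E) {v : E} (hv : v ≠ 0) : 0 < fshM μ v v := by
  rcases (fshM_nonneg μ v).lt_or_eq with h | h
  · exact h
  exfalso
  have h1 : (fun z : sphere (0 : E) 1 => gr v z * gr v z) =ᵐ[μ.toSphere] 0 := by
    rw [← integral_eq_zero_iff_of_nonneg (fun z => mul_self_nonneg _) (fsh_int μ v v)]
    exact h.symm
  obtain ⟨l, hl, hlv⟩ := exists_dual_vector'' ℝ v
  have h2 := sphere_b μ hd l hl v (p := fun y => y) (p' := fun _ => 1)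
    (fun y => hasDerivAt_id y) continuous_const
  have h3 : ∫ z : sphere (0 : E) 1, gr v z * l z ∂μ.toSphere = 0 := by
    refine integral_eq_zero_of_ae ?_
    filter_upwards [h1] with z hz
    have h4 : gr v (z : E) = 0 := by simpa only [Pi.zero_apply, mul_eq_zero, or_self] using hz
    rw [h4, zero_mul]
    rfl
  have h5 : 0 < μ.real (ball (0 : E) 1) :=
    ENNReal.toReal_pos (measure_ball_pos μ 0 one_pos).ne' measure_ball_lt_top.ne
  rw [h3, setIntegral_const, smul_eq_mul, mul_one, hlv] at h2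
  have h6 : 0 < ‖v‖ := norm_pos_iff.2 hv
  have h7 : (0 : ℝ) < ‖v‖ * μ.real (ball (0 : E) 1) := mul_pos h6 h5
  simp only [RCLike.ofReal_real_eq_id, id_eq] at h2
  linarith only [h2, h7]

/-- Cauchy-Schwarz on the sphere -/
theorem fsh_cs {a b : sphere (0 : E) 1 → ℝ} (ha : Measurable a) (hb : Measurable b) {A B : ℝ}
    (hA : ∀ z, |a z| ≤ A) (hB : ∀ z, |b z| ≤ B) :
    (∫ z, a z * b z ∂μ.toSphere) ^ 2 ≤ (∫ z, a z * a z ∂μ.toSphere) * ∫ z, b z ^ 2 ∂μ.toSphere := by
  have i1 : Integrable (fun z => a z * a z) μ.toSphere := by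
    refine integrable_sphere μ (ha.mul ha) (C := A * A) fun z => ?_
    rw [abs_mul]
    exact mul_le_mul (hA z) (hA z) (abs_nonneg _) ((abs_nonneg _).trans (hA z))
  have i2 : Integrable (fun z => a z * b z) μ.toSphere := by
    refine integrable_sphere μ (ha.mul hb) (C := A * B) fun z => ?_
    rw [abs_mul]
    exact mul_le_mul (hA z) (hB z) (abs_nonneg _) ((abs_nonneg _).trans (hA z))
  have i3 : Integrable (fun z => b z ^ 2) μ.toSphere := by
    refine integrable_sphere μ (hb.pow_const 2) (C := B * B) fun z => ?_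
    rw [pow_two, abs_mul]
    exact mul_le_mul (hB z) (hB z) (abs_nonneg _) ((abs_nonneg _).trans (hB z))
  have h1 : ∀ t : ℝ, 0 ≤ (∫ z, a z * a z ∂μ.toSphere) * (t * t) +
      (2 * ∫ z, a z * b z ∂μ.toSphere) * t + ∫ z, b z ^ 2 ∂μ.toSphere := by
    intro t
    have e1 : ∫ z, (t * a z + b z) ^ 2 ∂μ.toSphere = (∫ z, a z * a z ∂μ.toSphere) * (t * t) +
        (2 * ∫ z, a z * b z ∂μ.toSphere) * t + ∫ z, b z ^ 2 ∂μ.toSphere := by
      have e2 : (fun z => (t * a z + b z) ^ 2) =
          fun z => (t * t) * (a z * a z) + (2 * t) * (a z * b z) + b z ^ 2 := by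
        funext z
        ring
      have i4 : Integrable (fun z => (t * t) * (a z * a z)) μ.toSphere := i1.const_mul _
      have i5 : Integrable (fun z => (2 * t) * (a z * b z)) μ.toSphere := i2.const_mul _
      have i6 : Integrable (fun z => (t * t) * (a z * a z) + (2 * t) * (a z * b z))
        μ.toSphere := i4.add i5
      rw [e2, integral_add i6 i3, integral_add i4 i5, integral_const_mul, integral_const_mul]
      ring
    rw [← e1]
    exact integral_nonneg fun z => sq_nonneg _
  have h2 := discrim_le_zero h1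
  unfold discrim at h2
  linarith

theorem exists_point_fisher (hd : 2 ≤ finrank ℝ E) :
    ∃ x : sphere (0 : E) 1, DifferentiableAt ℝ (fun y : E => ‖y‖) (x : E) ∧
      ∀ p p' : ℝ → ℝ, (∀ y, HasDerivAt p (p' y) y) → Continuous p' →
        (∫ y in ball (0 : E) 1, p' (dg x y) ∂μ) ^ 2 ≤ (μ (ball (0 : E) 1)).toReal *
          ∫ y in ball (0 : E) 1, ((finrank ℝ E : ℝ) * p (dg x y) ^ 2 +
            2 * dg x y * p (dg x y) * p' (dg x y)) ∂μ := by
  classical
  have hB : 0 < (μ (ball (0 : E) 1)).toReal :=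
    ENNReal.toReal_pos (measure_ball_pos μ 0 one_pos).ne' measure_ball_lt_top.ne
  have hsymm : LinearMap.IsSymm (fshM μ) := ⟨fun v w => fshM_symm μ v w⟩
  obtain ⟨b, hb⟩ := LinearMap.BilinForm.exists_orthogonal_basis hsymm
  have hort : ∀ i j, i ≠ j → fshM μ (b i) (b j) = 0 := by
    intro i j hij
    exact hb hij
  have hm : ∀ i, 0 < fshM μ (b i) (b i) := fun i => fshM_pos μ hd (b.ne_zero i)
  -- the density
  obtain ⟨T, hT⟩ : ∃ T : sphere (0 : E) 1 → ℝ,
      T = fun z : sphere (0 : E) 1 => ∑ i, gr (b i) z * gr (b i) z / fshM μ (b i) (b i) :=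
    ⟨_, rfl⟩
  have iT0 : ∀ i, Integrable (fun z : sphere (0 : E) 1 =>
      gr (b i) z * gr (b i) z / fshM μ (b i) (b i)) μ.toSphere := fun i =>
    (fsh_int μ (b i) (b i)).div_const _
  have iT : Integrable T μ.toSphere := by
    rw [hT]
    exact integrable_finsetSum _ fun i _ => iT0 i
  have eT : ∫ z, T z ∂μ.toSphere = (finrank ℝ E : ℝ) := by
    rw [hT]
    rw [integral_finsetSum _ fun i _ => iT0 i]
    have h1 : ∀ i, ∫ z : sphere (0 : E) 1, gr (b i) z * gr (b i) z / fshM μ (b i) (b i)
        ∂μ.toSphere = 1 := by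
      intro i
      rw [integral_div, ← fshM_apply, div_self (hm i).ne']
    simp only [h1]
    simp only [Finset.sum_const, Finset.card_univ, Fintype.card_fin, nsmul_eq_mul, mul_one]
  have hσ : μ.toSphere.real univ = (finrank ℝ E : ℝ) * (μ (ball (0 : E) 1)).toReal := by
    rw [measureReal_def, μ.toSphere_apply_univ, ENNReal.toReal_mul, ENNReal.toReal_natCast]
  obtain ⟨x, hx, hTx⟩ : ∃ x : sphere (0 : E) 1, DifferentiableAt ℝ (fun y : E => ‖y‖) (x : E) ∧
      1 / (μ (ball (0 : E) 1)).toReal ≤ T x := by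
    by_contra hcon
    push Not at hcon
    have h1 : ∀ᵐ x : sphere (0 : E) 1 ∂μ.toSphere,
        0 < 1 / (μ (ball (0 : E) 1)).toReal - T x := by
      filter_upwards [ae_sphere μ] with x hx
      linarith only [hcon x hx]
    have i1 : Integrable (fun x => 1 / (μ (ball (0 : E) 1)).toReal - T x) μ.toSphere :=
      (integrable_const _).sub iT
    have h2 : ∫ x, (1 / (μ (ball (0 : E) 1)).toReal - T x) ∂μ.toSphere = 0 := by
      rw [integral_sub (integrable_const _) iT, eT, integral_const, hσ, smul_eq_mul]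
      field_simp
      ring
    have h3 := (integral_eq_zero_iff_of_nonneg_ae (h1.mono fun x hx => hx.le) i1).1 h2
    have h4 : ∀ᵐ _ : sphere (0 : E) 1 ∂μ.toSphere, False := by
      filter_upwards [h1, h3] with x a c
      simp only [Pi.zero_apply] at c
      linarith only [a, c]
    have h5 : μ.toSphere = 0 := by
      rw [Filter.eventually_false_iff_eq_bot, ae_eq_bot] at h4
      exact h4
    exact Measure.toSphere_ne_zero μ h5
  refine ⟨x, hx, fun p p' hp hp' => ?_⟩
  have hTpos : 0 < T x := lt_of_lt_of_le (by positivity) hTx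
  -- the test vector
  obtain ⟨a, ha⟩ : ∃ a : Fin (finrank ℝ E) → ℝ,
      a = fun i => (T x)⁻¹ * (gr (b i) x / fshM μ (b i) (b i)) := ⟨_, rfl⟩
  obtain ⟨v, hv⟩ : ∃ v : E, v = ∑ i, a i • b i := ⟨_, rfl⟩
  have hTx2 : T x = ∑ i, gr (b i) x * gr (b i) x / fshM μ (b i) (b i) := by rw [hT]
  have hdg : dg x v = 1 := by
    have h1 : dg x v = gr v (x : E) := rfl
    rw [h1, hv, fsh_gr_sum, ha]
    simp only
    have h2 : ∑ i, (T x)⁻¹ * (gr (b i) x / fshM μ (b i) (b i)) * gr (b i) x =
        (T x)⁻¹ * T x := by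
      rw [hTx2, Finset.mul_sum]
      exact Finset.sum_congr rfl fun i _ => by ring
    rw [h2, inv_mul_cancel₀ hTpos.ne']
  have hMv : fshM μ v v ≤ (μ (ball (0 : E) 1)).toReal := by
    have h1 : fshM μ v v = ∑ i, a i * (a i * fshM μ (b i) (b i)) := by
      rw [hv]
      simp only [map_sum, LinearMap.sum_apply, map_smul, LinearMap.smul_apply, smul_eq_mul]
      refine Finset.sum_congr rfl fun i _ => ?_
      rw [Finset.sum_eq_single i]
      · intro j _ hj
        rw [hort j i hj]
        ring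
      · intro h
        exact absurd (Finset.mem_univ i) h
    have h2 : ∑ i, a i * (a i * fshM μ (b i) (b i)) = (T x)⁻¹ := by
      have h3 : ∀ i, a i * (a i * fshM μ (b i) (b i)) = (T x)⁻¹ * (T x)⁻¹ *
          (gr (b i) x * gr (b i) x / fshM μ (b i) (b i)) := by
        intro i
        rw [ha]
        have := (hm i).ne'
        (clear hsymm hb hort hT iT0 iT eT hσ hx p p' hp hp' a ha v hv hTx2 hdg h1; field_simp)
      simp only [h3]
      rw [← Finset.mul_sum, ← hTx2, mul_assoc, inv_mul_cancel₀ hTpos.ne', mul_one]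
    rw [h1, h2]
    rw [inv_le_comm₀ hTpos hB]
    rw [one_div] at hTx
    exact hTx
  -- conclusion
  have hpc : Continuous p := continuous_iff_continuousAt.2 fun y => (hp y).continuousAt
  have hl := norm_dg_le x
  have e1 := sphere_b μ hd (dg x) hl v hp hp'
  rw [hdg, one_mul] at e1
  have e2 := sphere_a μ (dg x) (c := fun y => p y ^ 2) (c' := fun y => 2 * p y * p' y)
    (fun y => by
      have h1 := (hp y).pow 2
      refine h1.congr_deriv ?_
      simp) (by fun_prop)
  have hI : ∀ z : sphere (0 : E) 1, dg x z ∈ Icc (-1 : ℝ) 1 := by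
    intro z
    have := mem_Icc_ratio hl (z : E)
    rwa [norm_eq_of_mem_sphere z, div_one] at this
  have hlm : Measurable fun z : sphere (0 : E) 1 => dg x z :=
    ((dg x).continuous.comp continuous_subtype_val).measurable
  obtain ⟨D, hD⟩ := (isCompact_Icc (a := (-1:ℝ)) (b := 1)).exists_bound_of_continuousOn
    hpc.continuousOn
  have e3 := fsh_cs μ (fsh_meas v) (hpc.measurable.comp hlm) (fun z => abs_gr_le v (z : E))
    (fun z => hD _ (hI z))
  have e4 : (∫ y in ball (0 : E) 1, p' (dg x y) ∂μ) ^ 2 ≤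
      fshM μ v v * ∫ z : sphere (0 : E) 1, p (dg x z) ^ 2 ∂μ.toSphere := by
    rw [← e1]
    exact e3
  have e5 : ∫ z : sphere (0 : E) 1, p (dg x z) ^ 2 ∂μ.toSphere =
      ∫ y in ball (0 : E) 1, ((finrank ℝ E : ℝ) * p (dg x y) ^ 2 +
            2 * dg x y * p (dg x y) * p' (dg x y)) ∂μ := by
    rw [e2]
    refine integral_congr_ae (Filter.Eventually.of_forall fun y => ?_)
    beta_reduce
    ring
  rw [← e5]
  refine e4.trans (mul_le_mul_of_nonneg_right hMv ?_)
  exact integral_nonneg fun z => sq_nonneg _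

end Vale.Agent.P237.Exch

namespace Vale.Agent.P237.Alm

open AllN

theorem exists_dir_fish {V : Type*} [NormedAddCommGroup V] [InnerProductSpace ℝ V]
    [FiniteDimensional ℝ V] [MeasurableSpace V] [BorelSpace V] (K : Set V)
    [hK : Fact (IsSymBody K)] [Nontrivial V] (hd : 2 ≤ finrank ℝ V) :
    ∃ u : V, ‖u‖ = 1 ∧ Fish (finrank ℝ V) (fun t => vol (slice K u (supp K u * t))) := by
  obtain ⟨x, hx, h⟩ := Exch.exists_point_fisher (gm K) (by rw [finrank_GS]; exact hd)
  refine ⟨du K x, norm_du K hx, fun p p' hp hp' => ?_⟩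
  have hpc : Continuous p := continuous_iff_continuousAt.2 fun y => (hp y).continuousAt
  have h1 := h p p' hp hp'
  have hpos : 0 < supp K (du K x) := supp_pos hK.out (norm_du K hx)
  have e1 := integral_dg K hx hp'
  have e2 := integral_dg K hx (F := fun _ => (1 : ℝ)) continuous_const
  have e3 := integral_dg K hx (F := fun t => (finrank ℝ V : ℝ) * p t ^ 2 + 2 * t * p t * p' t)
    (by fun_prop)
  have e4 : (gm K (ball (0 : GS K) 1)).toReal = ∫ _y in ball (0 : GS K) 1, (1 : ℝ) ∂(gm K) := by
    rw [setIntegral_const, smul_eq_mul, mul_one]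
    rfl
  rw [finrank_GS, e4, e1, e2, e3] at h1
  simp only [one_mul] at h1
  have h2 : 0 < supp K (du K x) ^ 2 := by (clear hd hx h p p' hp hp' hpc e1 e2 e3 e4 h1; positivity)
  refine le_of_mul_le_mul_left ?_ h2
  calc _ = (supp K (du K x) * ∫ t in (-1 : ℝ)..1, p' t *
        vol (slice K (du K x) (supp K (du K x) * t))) ^ 2 := by ring
    _ ≤ _ := h1
    _ = _ := by ring

end Vale.Agent.P237.Alm
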