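import Vale.Agent.P237.Alm.MainA

/-!
# P237, almost Petty in all dimensions: the final form
-/

open MeasureTheory Metric Set Module

namespace Vale.Agent.P237.Statement

variable {V : Type} [NormedAddCommGroup V] [InnerProductSpace ℝ V] [FiniteDimensional ℝ V]
  [MeasurableSpace V] [BorelSpace V]

/-- Petty's inequality up to the factor `2/√(3π)` in every dimension `n ≥ 3`. -/
theorem almost_petty {n : ℕ} (hn : 3 ≤ n) (hd : finrank ℝ V = n) {K L : Set V}
    (hK : IsConvexBody K) (hL : IsProjectionBody K L) :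
    2 / Real.sqrt (3 * Real.pi) *
      (kappa (n - 1) ^ n * kappa n ^ (2 - (n : ℤ)) * vol K ^ (n - 1)) ≤ vol L := by
  have hK' : IsBody K := ⟨hK.1, hK.2.1, hK.2.2⟩
  obtain rfl := (isProjectionBody_iff hK).1 hL
  have h := Alm.pettyC_all hn V hd K hK'
  rw [← mul_assoc]
  exact h

end Vale.Agent.P237.Statement
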