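import Vale.Agent.P237.Alm.Defs

/-!
# P237, almost Petty in all dimensions: elementary lemmas on integrals of powers of the cosine
-/

open MeasureTheory Metric Set Module Real

namespace Vale.Agent.P237.Alm

open AllN

lemma ang_ii (f : ℝ → ℝ) (hf : Continuous f) (a b : ℝ) : IntervalIntegrable f volume a b :=
  hf.intervalIntegrable a b

theorem aInt_eq (k : ℕ) : aInt k = 2 * ∫ β in (0 : ℝ)..(π / 2), cos β ^ (k + 1) := by
  have h1 : aInt k = ∫ β in (-(π / 2))..(π / 2), cos β ^ (k + 1) := by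
    have h2 := intervalIntegral.integral_comp_mul_deriv (a := -(π / 2)) (b := π / 2)
      (f := sin) (f' := cos) (g := fun y => Real.sqrt (1 - y ^ 2) ^ k)
      (fun x _ => hasDerivAt_sin x) continuous_cos.continuousOn (by (clear * -; fun_prop))
    rw [sin_neg, sin_pi_div_two] at h2
    rw [aInt, ← h2]
    refine intervalIntegral.integral_congr fun x hx => ?_
    rw [uIcc_of_le (by have := pi_pos; linarith only [this])] at hx
    have hc : 0 ≤ cos x := cos_nonneg_of_mem_Icc hx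
    simp only [Function.comp_apply]
    rw [show 1 - sin x ^ 2 = cos x ^ 2 by rw [cos_sq'], Real.sqrt_sq hc, pow_succ]
  have h3 : ∫ β in (-(π / 2))..0, cos β ^ (k + 1) = ∫ β in (0 : ℝ)..(π / 2), cos β ^ (k + 1) := by
    have h4 := intervalIntegral.integral_comp_neg (a := 0) (b := π / 2)
      (fun β => cos β ^ (k + 1))
    rw [neg_zero] at h4
    rw [← h4]
    simp only [cos_neg]
  rw [h1, ← intervalIntegral.integral_add_adjacent_intervals
    (ang_ii _ (by fun_prop) (-(π / 2)) 0) (ang_ii _ (by fun_prop) 0 (π / 2)), h3]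
  ring

theorem int_sin_sq {m : ℕ} (hm : 3 ≤ m) : ∫ β in (0 : ℝ)..(π / 2), sin β ^ 2 * cos β ^ (m - 3) =
    1 / ((m : ℝ) - 2) * ∫ β in (0 : ℝ)..(π / 2), cos β ^ (m - 1) := by
  obtain ⟨j, rfl⟩ := Nat.exists_eq_add_of_le' hm
  have e1 : j + 3 - 3 = j := by omega
  have e2 : j + 3 - 1 = j + 2 := by omega
  rw [e1, e2]
  have hd : ∀ x : ℝ, HasDerivAt (fun β => sin β * cos β ^ (j + 1))
      (cos x ^ (j + 2) - ((j : ℝ) + 1) * (sin x ^ 2 * cos x ^ j)) x := by
    intro x
    have h1 := (hasDerivAt_sin x).mul ((hasDerivAt_cos x).pow (j + 1))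
    refine h1.congr_deriv ?_
    push_cast
    simp only [Pi.pow_apply]
    ring
  have h2 := intervalIntegral.integral_eq_sub_of_hasDerivAt (a := 0) (b := π / 2)
    (fun x _ => hd x) (ang_ii _ (by (clear * -; (clear * -; fun_prop))) _ _)
  rw [intervalIntegral.integral_sub (ang_ii _ (by fun_prop) _ _) (ang_ii _ (by fun_prop) _ _),
    intervalIntegral.integral_const_mul] at h2
  simp only [cos_pi_div_two, sin_pi_div_two, sin_zero, zero_mul, one_mul] at h2
  rw [zero_pow (by omega)] at h2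
  have h3 : ((j + 3 : ℕ) : ℝ) - 2 = (j : ℝ) + 1 := by push_cast; ring
  rw [h3]
  have h4 : (j : ℝ) + 1 ≠ 0 := by (clear * -; (clear * -; positivity))
  field_simp
  linarith only [h2]

theorem int_sin_mul {m : ℕ} (hm : 3 ≤ m) (α : ℝ) : ∫ β in α..(π / 2), sin β * cos β ^ (m - 2) =
    cos α ^ (m - 1) / ((m : ℝ) - 1) := by
  obtain ⟨j, rfl⟩ := Nat.exists_eq_add_of_le' hm
  have e1 : j + 3 - 2 = j + 1 := by omega
  have e2 : j + 3 - 1 = j + 2 := by omega
  rw [e1, e2]
  have h3 : ((j + 3 : ℕ) : ℝ) - 1 = (j : ℝ) + 2 := by push_cast; ring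
  rw [h3]
  have h4 : (j : ℝ) + 2 ≠ 0 := by (clear * -; (clear * -; positivity))
  have hd : ∀ x : ℝ, HasDerivAt (fun β => -(cos β ^ (j + 2) / ((j : ℝ) + 2)))
      (sin x * cos x ^ (j + 1)) x := by
    intro x
    have h1 := (((hasDerivAt_cos x).pow (j + 2)).div_const ((j : ℝ) + 2)).neg
    convert! h1 using 1
    push_cast
    (clear * - h4; field_simp)
  have h2 := intervalIntegral.integral_eq_sub_of_hasDerivAt (a := α) (b := π / 2)
    (fun x _ => hd x) (ang_ii _ (by (clear * -; fun_prop)) _ _)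
  rw [h2, cos_pi_div_two, zero_pow (by omega)]
  ring

theorem tail_cs {m : ℕ} (hm : 3 ≤ m) {α : ℝ} (h0 : 0 ≤ α) (h1 : α ≤ π / 2) :
    (cos α ^ (m - 1) / ((m : ℝ) - 1)) ^ 2 ≤ (∫ β in α..(π / 2), cos β ^ (m - 1)) *
      ∫ β in α..(π / 2), sin β ^ 2 * cos β ^ (m - 3) := by
  rw [← int_sin_mul hm α]
  obtain ⟨j, rfl⟩ := Nat.exists_eq_add_of_le' hm
  have e0 : j + 3 - 3 = j := by omega
  have e1 : j + 3 - 2 = j + 1 := by (clear * - hm e0; omega)
  have e2 : j + 3 - 1 = j + 2 := by omega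
  rw [e0, e1, e2]
  set A := ∫ β in α..(π / 2), cos β ^ (j + 2) with hA
  set B := ∫ β in α..(π / 2), sin β * cos β ^ (j + 1) with hB
  set D := ∫ β in α..(π / 2), sin β ^ 2 * cos β ^ j with hD
  have hcos : ∀ x ∈ Icc α (π / 2), 0 ≤ cos x := fun x hx =>
    cos_nonneg_of_mem_Icc ⟨by have := pi_pos; linarith only [h0, this, hx.1], hx.2⟩
  have hA0 : 0 ≤ A := intervalIntegral.integral_nonneg h1 fun x hx => pow_nonneg (hcos x hx) _
  have hquad : ∀ t : ℝ, 0 ≤ D - 2 * t * B + t ^ 2 * A := by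
    intro t
    have h2 : ∫ β in α..(π / 2), (sin β - t * cos β) ^ 2 * cos β ^ j =
        D - 2 * t * B + t ^ 2 * A := by
      rw [hA, hB, hD, ← intervalIntegral.integral_const_mul, ← intervalIntegral.integral_const_mul,
        ← intervalIntegral.integral_sub (ang_ii _ (by (clear * -; fun_prop)) _ _) (ang_ii _ (by fun_prop) _ _),
        ← intervalIntegral.integral_add (ang_ii _ (by (clear * -; fun_prop)) _ _) (ang_ii _ (by fun_prop) _ _)]
      refine intervalIntegral.integral_congr fun x _ => ?_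
      ring
    rw [← h2]
    exact intervalIntegral.integral_nonneg h1 fun x hx =>
      mul_nonneg (sq_nonneg _) (pow_nonneg (hcos x hx) _)
  rcases hA0.eq_or_lt with h | h
  · have hB0 : B = 0 := by
      by_contra hne
      have h3 := hquad ((D + 1) / (2 * B))
      rw [← h] at h3
      have h4 : 2 * ((D + 1) / (2 * B)) * B = D + 1 := by (clear * - hne; field_simp)
      rw [h4] at h3
      linarith only [h3]
    rw [hB0, ← h]
    norm_num
  · have h3 := hquad (B / A)
    have h4 : D - 2 * (B / A) * B + (B / A) ^ 2 * A = D - B ^ 2 / A := by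
      field_simp
      ring
    rw [h4, sub_nonneg, div_le_iff₀ h] at h3
    linarith only [h3]

/-- tangent inequality for `x ↦ x^(-1/m)`, written for `x = y^m` -/
theorem young_pt {m : ℕ} (hm : 3 ≤ m) {y c : ℝ} (hy : 0 < y) (hc : 0 < c) :
    (1 + 1 / (m : ℝ)) / c - 1 / (m : ℝ) * (y ^ m / c ^ (m + 1)) ≤ 1 / y := by
  have hm0 : (0 : ℝ) < m := by
    have : 0 < m := by omega
    exact_mod_cast this
  have h1 := one_add_mul_le_pow (a := y / c - 1) (by
    have : 0 < y / c := div_pos hy hc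
    linarith only [this]) (m + 1)
  rw [add_sub_cancel, div_pow] at h1
  push_cast at h1
  have hz : 0 < y / c := div_pos hy hc
  have h2 : ((m : ℝ) + 1) * (y / c) - y ^ (m + 1) / c ^ (m + 1) ≤ m := by linarith only [h1]
  have h3 : (1 + 1 / (m : ℝ)) / c - 1 / (m : ℝ) * (y ^ m / c ^ (m + 1)) =
      (((m : ℝ) + 1) * (y / c) - y ^ (m + 1) / c ^ (m + 1)) / (m * y) := by
    field_simp
    ring
  rw [h3, div_le_div_iff₀ (by positivity) hy, one_mul]
  nlinarith only [hy, h1]

theorem ang_tail_pos {j : ℕ} {α : ℝ} (h0 : 0 ≤ α) (h1 : α < π / 2) :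
    0 < ∫ β in α..(π / 2), cos β ^ j := by
  refine intervalIntegral.intervalIntegral_pos_of_pos_on (ang_ii _ (by fun_prop) _ _) ?_ h1
  intro x hx
  exact pow_pos (cos_pos_of_mem_Ioo ⟨by have := pi_pos; linarith [hx.1], hx.2⟩) _

theorem ang_tail_tan {m : ℕ} (hm : 3 ≤ m) {α : ℝ} (h0 : 0 ≤ α) (h1 : α < π / 2) :
    (∫ β in α..(π / 2), cos β ^ (m - 1)) * tan α ≤ cos α ^ (m - 1) / ((m : ℝ) - 1) := by
  rw [← int_sin_mul hm α, mul_comm, ← intervalIntegral.integral_const_mul]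
  refine intervalIntegral.integral_mono_on h1.le (ang_ii _ (by fun_prop) _ _)
    (ang_ii _ (by fun_prop) _ _) fun x hx => ?_
  have hcα : 0 < cos α := cos_pos_of_mem_Ioo ⟨by have := pi_pos; linarith only [h0, h1], h1⟩
  have hcx : 0 ≤ cos x := cos_nonneg_of_mem_Icc ⟨by have := pi_pos; linarith only [h0, h1, hx.1], hx.2⟩
  have hca : cos x ≤ cos α := cos_le_cos_of_nonneg_of_le_pi h0 (by linarith only [h0, h1, hx.2]) hx.1
  have hsa : sin α ≤ sin x := sin_le_sin_of_le_of_le_pi_div_two (by linarith only [h0, h1]) hx.2 hx.1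
  have hs0 : 0 ≤ sin α := sin_nonneg_of_nonneg_of_le_pi h0 (by linarith only [h0, h1])
  have e1 : m - 1 = (m - 2) + 1 := by omega
  rw [e1, pow_succ, tan_eq_sin_div_cos]
  have h2 : sin α / cos α * cos x ≤ sin x := by
    rw [div_mul_eq_mul_div, div_le_iff₀ hcα]
    nlinarith only [hcα, hsa, hca, hs0]
  calc sin α / cos α * (cos x ^ (m - 2) * cos x) = (sin α / cos α * cos x) * cos x ^ (m - 2) := by
        ring
    _ ≤ sin x * cos x ^ (m - 2) := mul_le_mul_of_nonneg_right h2 (pow_nonneg hcx _)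

theorem tail_young {m : ℕ} (hm : 3 ≤ m) {ν : ℝ} (hν : 0 < ν) {α : ℝ} (h0 : 0 ≤ α)
    (h1 : α < π / 2) :
    (1 + 1 / (m : ℝ)) * (∫ β in α..(π / 2), cos β ^ (m - 2)) -
      ν / m * (cos α ^ (m - 1) / ((m : ℝ) - 1) - (∫ β in α..(π / 2), cos β ^ (m - 1)) * tan α) ≤
    (m : ℝ) / ((m : ℝ) - 1) * (ν ^ (-(1 / (m : ℝ))) *
      (∫ β in α..(π / 2), cos β ^ (m - 1)) ^ (1 - 1 / (m : ℝ))) := by
  have hm3 : (3 : ℝ) ≤ m := by exact_mod_cast hm
  have hm0 : (0 : ℝ) < m := by linarith only [hm3]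
  have hm1 : (0 : ℝ) < (m : ℝ) - 1 := by linarith only [hm3]
  set a : ℝ → ℝ := fun b => ∫ β in b..(π / 2), cos β ^ (m - 1) with ha
  set c2 : ℝ → ℝ := fun b => ∫ β in b..(π / 2), cos β ^ (m - 2) with hc2
  set H : ℝ → ℝ := fun b => (m : ℝ) / ((m : ℝ) - 1) * (ν ^ (-(1 / (m : ℝ))) *
      (a b) ^ (1 - 1 / (m : ℝ))) - ((1 + 1 / (m : ℝ)) * c2 b -
      ν / m * (cos b ^ (m - 1) / ((m : ℝ) - 1) - a b * tan b)) with hH
  have ha' : ∀ b : ℝ, HasDerivAt a (-cos b ^ (m - 1)) b := by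
    intro b
    have h2 : ∀ x : ℝ, HasDerivAt (fun u => ∫ β in (π / 2)..u, cos β ^ (m - 1))
        (cos x ^ (m - 1)) x := fun x =>
      ((by fun_prop : Continuous fun β : ℝ => cos β ^ (m - 1)).integral_hasStrictDerivAt
        (π / 2) x).hasDerivAt
    have h3 := (h2 b).neg
    convert! h3 using 1
    funext u
    simp only [ha]
    exact intervalIntegral.integral_symm _ _
  have hc2' : ∀ b : ℝ, HasDerivAt c2 (-cos b ^ (m - 2)) b := by
    intro b
    have h2 : ∀ x : ℝ, HasDerivAt (fun u => ∫ β in (π / 2)..u, cos β ^ (m - 2))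
        (cos x ^ (m - 2)) x := fun x =>
      ((by fun_prop : Continuous fun β : ℝ => cos β ^ (m - 2)).integral_hasStrictDerivAt
        (π / 2) x).hasDerivAt
    have h3 := (h2 b).neg
    convert! h3 using 1
    funext u
    simp only [hc2]
    exact intervalIntegral.integral_symm _ _
  have hapos : ∀ b ∈ Ico α (π / 2), 0 < a b := fun b hb =>
    ang_tail_pos (h0.trans hb.1) hb.2
  have hcpos : ∀ b ∈ Ico α (π / 2), 0 < cos b := fun b hb =>
    cos_pos_of_mem_Ioo ⟨by have := pi_pos; linarith only [h0, h1, hb.1], hb.2⟩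
  have hH' : ∀ b ∈ Ico α (π / 2), HasDerivAt H (-(cos b ^ (m - 1) *
      ((ν * a b) ^ (-(1 / (m : ℝ))) - ((1 + 1 / (m : ℝ)) / cos b -
        1 / (m : ℝ) * (ν * a b / cos b ^ (m + 1)))))) b := by
    intro b hb
    have hp := hapos b hb
    have hc := hcpos b hb
    have d1 := ((ha' b).rpow_const (p := 1 - 1 / (m : ℝ)) (Or.inl hp.ne')).const_mul
      (ν ^ (-(1 / (m : ℝ))))
    have d2 := d1.const_mul ((m : ℝ) / ((m : ℝ) - 1))
    have d3 := (hc2' b).const_mul (1 + 1 / (m : ℝ))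
    have d4 := (((hasDerivAt_cos b).pow (m - 1)).div_const ((m : ℝ) - 1)).sub
      ((ha' b).mul (hasDerivAt_tan hc.ne'))
    have d5 := d2.sub (d3.sub (d4.const_mul (ν / m)))
    refine d5.congr_deriv ?_
    have e1 : m - 1 - 1 = m - 2 := by (clear * - hm; omega)
    have e2 : cos b ^ (m - 1) = cos b ^ (m - 2) * cos b := by
      rw [← pow_succ]; congr 1; omega
    have e3 : cos b ^ (m + 1) = cos b ^ (m - 2) * cos b ^ 3 := by
      rw [← pow_add]; congr 1; omega
    have e4 : ((m - 1 : ℕ) : ℝ) = (m : ℝ) - 1 := by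
      rw [Nat.cast_sub (by omega)]; norm_num
    have e5 : (a b) ^ (1 - 1 / (m : ℝ) - 1) = (a b) ^ (-(1 / (m : ℝ))) := by
      congr 1; ring
    have e6 : (ν * a b) ^ (-(1 / (m : ℝ))) = ν ^ (-(1 / (m : ℝ))) * (a b) ^ (-(1 / (m : ℝ))) :=
      Real.mul_rpow hν.le hp.le
    have hcm : 0 < cos b ^ (m - 2) := pow_pos hc _
    rw [e1, e5, e6, e4, e2, e3, tan_eq_sin_div_cos]
    have hm1' : (m : ℝ) - 1 ≠ 0 := hm1.ne'
    have hm0' : (m : ℝ) ≠ 0 := hm0.ne'
    have hc' : cos b ≠ 0 := hc.ne'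
    have hcm' : cos b ^ (m - 2) ≠ 0 := hcm.ne'
    generalize ν ^ (-(1 / (m : ℝ))) = X
    generalize (a b) ^ (-(1 / (m : ℝ))) = Y
    generalize cos b ^ (m - 2) = Zc at *
    generalize a b = Aa at *
    field_simp
    ring
  have hneg : ∀ b ∈ Ico α (π / 2), -(cos b ^ (m - 1) *
      ((ν * a b) ^ (-(1 / (m : ℝ))) - ((1 + 1 / (m : ℝ)) / cos b -
        1 / (m : ℝ) * (ν * a b / cos b ^ (m + 1))))) ≤ 0 := by
    intro b hb
    have hp := hapos b hb
    have hc := hcpos b hb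
    have hq : 0 < ν * a b := mul_pos hν hp
    have hy : 0 < (ν * a b) ^ (1 / (m : ℝ)) := Real.rpow_pos_of_pos hq _
    have h2 := young_pt hm hy hc
    have h3 : ((ν * a b) ^ (1 / (m : ℝ))) ^ m = ν * a b := by
      rw [← Real.rpow_natCast, ← Real.rpow_mul hq.le]
      rw [one_div, inv_mul_cancel₀ hm0.ne', Real.rpow_one]
    rw [h3, one_div ((ν * a b) ^ (1 / (m : ℝ))), ← Real.rpow_neg hq.le] at h2
    have h4 : 0 < cos b ^ (m - 1) := pow_pos hc _
    have h5 := mul_nonneg h4.le (sub_nonneg.mpr h2)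
    linarith only [h5]
  have hanti : AntitoneOn H (Ico α (π / 2)) := by
    refine antitoneOn_of_deriv_nonpos (convex_Ico _ _) ?_ ?_ ?_
    · exact fun b hb => (hH' b hb).continuousAt.continuousWithinAt
    · intro b hb
      rw [interior_Ico] at hb
      exact (hH' b ⟨hb.1.le, hb.2⟩).differentiableAt.differentiableWithinAt
    · intro b hb
      rw [interior_Ico] at hb
      rw [(hH' b ⟨hb.1.le, hb.2⟩).deriv]
      exact hneg b ⟨hb.1.le, hb.2⟩
  have hlow : ∀ b ∈ Ico α (π / 2), -((1 + 1 / (m : ℝ)) * c2 b) ≤ H α := by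
    intro b hb
    have h2 : H b ≤ H α := hanti ⟨le_rfl, h1⟩ hb hb.1
    have h3 := ang_tail_tan hm (h0.trans hb.1) hb.2
    have h4 : 0 ≤ (m : ℝ) / ((m : ℝ) - 1) * (ν ^ (-(1 / (m : ℝ))) *
      (a b) ^ (1 - 1 / (m : ℝ))) := by
      have := (hapos b hb).le
      (clear * - hm hm1 hν this; (clear * - hm hm1 hν this; positivity))
    have h5 : 0 ≤ ν / m * (cos b ^ (m - 1) / ((m : ℝ) - 1) - a b * tan b) :=
      mul_nonneg (by positivity) (sub_nonneg.mpr h3)
    have h6 : -((1 + 1 / (m : ℝ)) * c2 b) ≤ H b := by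
      simp only [hH]
      linarith only [h4, h5]
    (clear * - h2 h4 h5; linarith)
  have hlim : Filter.Tendsto (fun b => -((1 + 1 / (m : ℝ)) * c2 b)) (nhdsWithin (π / 2) (Iio (π / 2)))
      (nhds 0) := by
    have h2 : ContinuousAt (fun b => -((1 + 1 / (m : ℝ)) * c2 b)) (π / 2) :=
      ((hc2' (π / 2)).continuousAt.const_mul _).neg
    have h3 : -((1 + 1 / (m : ℝ)) * c2 (π / 2)) = 0 := by
      simp only [one_div, hc2, intervalIntegral.integral_same, mul_zero, neg_zero]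
    have h4 := h2.tendsto
    rw [h3] at h4
    exact h4.mono_left nhdsWithin_le_nhds
  have hfin : 0 ≤ H α := by
    refine le_of_tendsto hlim ?_
    have h2 : Ico α (π / 2) ∈ nhdsWithin (π / 2) (Iio (π / 2)) := Ico_mem_nhdsLT h1
    filter_upwards [h2] with b hb using hlow b hb
  simp only [hH] at hfin
  linarith only [hfin]

/-- The inverse of the normalised angle function. -/
theorem exists_angle {m : ℕ} (hm : 3 ≤ m) : ∃ al : ℝ → ℝ, al 0 = 0 ∧
    (∀ v ∈ Ico (0 : ℝ) 1, al v ∈ Ico (0 : ℝ) (π / 2)) ∧ MonotoneOn al (Ico (0 : ℝ) 1) ∧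
    (∀ v ∈ Ico (0 : ℝ) 1, ∫ β in (0 : ℝ)..(al v), cos β ^ (m - 1) =
      v * ∫ β in (0 : ℝ)..(π / 2), cos β ^ (m - 1)) ∧
    ContinuousOn al (Ico (0 : ℝ) 1) ∧
    ∀ v ∈ Ioo (0 : ℝ) 1, HasDerivAt al
      ((∫ β in (0 : ℝ)..(π / 2), cos β ^ (m - 1)) / cos (al v) ^ (m - 1)) v := by
  have hpi := pi_pos
  set F : ℝ → ℝ := fun x => ∫ β in (0 : ℝ)..x, cos β ^ (m - 1) with hF
  set Z := ∫ β in (0 : ℝ)..(π / 2), cos β ^ (m - 1) with hZ
  have hF' : ∀ x : ℝ, HasDerivAt F (cos x ^ (m - 1)) x := fun x =>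
    ((by fun_prop : Continuous fun β : ℝ => cos β ^ (m - 1)).integral_hasStrictDerivAt
        0 x).hasDerivAt
  have hFc : Continuous F := continuous_iff_continuousAt.mpr fun x => (hF' x).continuousAt
  have hF0 : F 0 = 0 := by simp only [hF, intervalIntegral.integral_same]
  have hFZ : F (π / 2) = Z := rfl
  have hFm : StrictMonoOn F (Icc 0 (π / 2)) := by
    refine strictMonoOn_of_deriv_pos (convex_Icc _ _) hFc.continuousOn ?_
    intro x hx
    rw [interior_Icc] at hx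
    rw [(hF' x).deriv]
    exact pow_pos (cos_pos_of_mem_Ioo ⟨by linarith only [hpi, hx.1], hx.2⟩) _
  have hZ0 : 0 < Z := ang_tail_pos le_rfl (by linarith only [hpi])
  -- the extension
  set P : ℝ → ℝ := fun x => max 0 (min x (π / 2)) with hP
  have hPmem : ∀ x, P x ∈ Icc (0 : ℝ) (π / 2) := fun x =>
    ⟨le_max_left _ _, max_le (by linarith only [hpi]) (min_le_right _ _)⟩
  have hPid : ∀ x ∈ Icc (0 : ℝ) (π / 2), P x = x := by
    intro x hx
    simp only [hP]
    rw [min_eq_left hx.2, max_eq_right hx.1]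
  have hPmono : Monotone P := fun x y h => max_le_max le_rfl (min_le_min h le_rfl)
  have hPlip : ∀ x y, x ≤ y → P y - P x ≤ y - x := by
    intro x y h
    simp only [hP]
    rcases le_total x (π / 2) with h1 | h1 <;> rcases le_total y (π / 2) with h2 | h2 <;>
      simp only [h1, h2, min_eq_left, min_eq_right] <;>
      rcases le_total 0 x with h3 | h3 <;> rcases le_total 0 y with h4 | h4 <;>
      simp only [h3, h4, max_eq_left, max_eq_right, (by linarith only [hpi] : (0 : ℝ) ≤ π / 2)] <;> linarith only [h, h2, h3, hpi, h1, h4]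
  have hPc : Continuous P := by fun_prop
  set Q : ℝ → ℝ := fun x => F (P x) + (x - P x) with hQ
  have hQc : Continuous Q := by (clear * - hFc hPc; fun_prop)
  have hQm : StrictMono Q := by
    intro x y h
    simp only [hQ]
    rcases (hPmono h.le).eq_or_lt with h1 | h1
    · rw [h1]; linarith only [h]
    · have h2 := hFm (hPmem x) (hPmem y) h1
      have h3 := hPlip x y h.le
      linarith only [h2, h3]
  have hFb : ∀ x ∈ Icc (0 : ℝ) (π / 2), 0 ≤ F x ∧ F x ≤ Z := by
    intro x hx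
    constructor
    · rw [← hF0]
      exact hFm.monotoneOn ⟨le_rfl, by linarith only [hpi]⟩ hx hx.1
    · exact hFm.monotoneOn hx ⟨by linarith only [hpi], le_rfl⟩ hx.2
  have hQsurj : Function.Surjective Q := by
    refine hQc.surjective ?_ ?_
    · refine Filter.tendsto_atTop_mono (f := fun x => x - π / 2) (fun x => ?_)
        (Filter.tendsto_atTop_add_const_right _ _ Filter.tendsto_id)
      have h1 := hFb _ (hPmem x)
      have h2 := (hPmem x).2
      simp only [hQ]
      linarith only [h1, h2]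
    · refine Filter.tendsto_atBot_mono (g := Q) (f := fun x => x + Z) (fun x => ?_)
        (Filter.tendsto_atBot_add_const_right _ _ Filter.tendsto_id)
      have h1 := hFb _ (hPmem x)
      have h2 := (hPmem x).1
      simp only [hQ]
      linarith only [h1, h2]
  set e := StrictMono.orderIsoOfSurjective Q hQm hQsurj with he
  have heQ : ∀ x, e x = Q x := fun x => rfl
  have hQe : ∀ y, Q (e.symm y) = y := fun y => by rw [← heQ, OrderIso.apply_symm_apply]
  have hQ0 : Q 0 = 0 := by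
    simp only [hQ]
    rw [hPid 0 ⟨le_rfl, by linarith only [hpi]⟩, hF0]
    ring
  have hQpi : Q (π / 2) = Z := by
    simp only [hQ]
    rw [hPid (π / 2) ⟨by linarith only [hpi], le_rfl⟩, hFZ]
    ring
  have hal : ∀ v ∈ Ico (0 : ℝ) 1, e.symm (v * Z) ∈ Ico (0 : ℝ) (π / 2) := by
    intro v hv
    constructor
    · rw [OrderIso.le_symm_apply, heQ, hQ0]
      exact mul_nonneg hv.1 hZ0.le
    · rw [OrderIso.symm_apply_lt, heQ, hQpi]
      nlinarith only [hZ0, hv.2]
  have halF : ∀ v ∈ Ico (0 : ℝ) 1, F (e.symm (v * Z)) = v * Z := by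
    intro v hv
    have h1 := hal v hv
    have h2 := hQe (v * Z)
    simp only [hQ] at h2
    rw [hPid _ ⟨h1.1, h1.2.le⟩] at h2
    linarith only [h2]
  have hcont : Continuous fun v : ℝ => e.symm (v * Z) :=
    e.symm.continuous.comp (continuous_id.mul continuous_const)
  refine ⟨fun v => e.symm (v * Z), ?_, hal, ?_, halF, hcont.continuousOn, ?_⟩
  · simp only [zero_mul]
    rw [OrderIso.symm_apply_eq, heQ, hQ0]
  · intro x _ y _ h
    exact e.symm.monotone (mul_le_mul_of_nonneg_right h hZ0.le)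
  · intro v hv
    have h1 := hal v ⟨hv.1.le, hv.2⟩
    have h2 : 0 < cos (e.symm (v * Z)) := cos_pos_of_mem_Ioo ⟨by linarith only [hpi, h1.1], h1.2⟩
    have h3 : HasDerivAt (fun x => F x / Z) (cos (e.symm (v * Z)) ^ (m - 1) / Z)
        (e.symm (v * Z)) := (hF' _).div_const Z
    have h4 : ∀ᶠ y in nhds v, F (e.symm (y * Z)) / Z = y := by
      filter_upwards [Ioo_mem_nhds hv.1 hv.2] with y hy
      rw [halF y ⟨hy.1.le, hy.2⟩, mul_div_assoc, div_self hZ0.ne', mul_one]
    have h5 := HasDerivAt.of_local_left_inverse (g := fun v => e.symm (v * Z))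
      hcont.continuousAt h3 (div_pos (pow_pos h2 _) hZ0).ne' h4
    rwa [inv_div] at h5

end Vale.Agent.P237.Alm
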