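import Vale.Agent.P237.Alm.Defs

set_option linter.all false

/-!
# P237, almost Petty: extension of the test functions to Lipschitz functions
-/

open MeasureTheory Metric Set Module

namespace Vale.Agent.P237.Alm

open AllN

open Filter Topology

/-- constant continuation outside of `[0,1]` -/
noncomputable def ecl (p : ℝ → ℝ) (t : ℝ) : ℝ := p (max 0 (min t 1))

/-- even difference quotient -/
noncomputable def eqh (p : ℝ → ℝ) (h t : ℝ) : ℝ := (ecl p (|t| + h) - ecl p |t|) / h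

theorem ecl_lip {p : ℝ → ℝ} {D : ℝ}
    (hp : ∀ x ∈ Icc (0 : ℝ) 1, ∀ y ∈ Icc (0 : ℝ) 1, |p x - p y| ≤ D * |x - y|) (hD : 0 ≤ D)
    (x y : ℝ) : |ecl p x - ecl p y| ≤ D * |x - y| := by
  have hm : ∀ t : ℝ, max 0 (min t 1) ∈ Icc (0 : ℝ) 1 := fun t =>
    ⟨le_max_left _ _, max_le zero_le_one (min_le_right _ _)⟩
  refine (hp _ (hm x) _ (hm y)).trans (mul_le_mul_of_nonneg_left ?_ hD)
  refine (abs_max_sub_max_le_max _ _ _ _).trans (max_le (by simp) ?_)
  exact (abs_min_sub_min_le_max _ _ _ _).trans (max_le le_rfl (by simp))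

theorem ecl_cont {p : ℝ → ℝ} {D : ℝ}
    (hp : ∀ x ∈ Icc (0 : ℝ) 1, ∀ y ∈ Icc (0 : ℝ) 1, |p x - p y| ≤ D * |x - y|) (hD : 0 ≤ D) :
    Continuous (ecl p) := by
  have : LipschitzWith ⟨D, hD⟩ (ecl p) := LipschitzWith.of_dist_le_mul fun x y => by
    rw [Real.dist_eq, Real.dist_eq]
    exact ecl_lip hp hD x y
  exact this.continuous

theorem ecl_eq {p : ℝ → ℝ} {t : ℝ} (h0 : 0 ≤ t) (h1 : t ≤ 1) : ecl p t = p t := by
  rw [ecl, min_eq_left h1, max_eq_right h0]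

theorem eqh_cont {p : ℝ → ℝ} {D : ℝ}
    (hp : ∀ x ∈ Icc (0 : ℝ) 1, ∀ y ∈ Icc (0 : ℝ) 1, |p x - p y| ≤ D * |x - y|) (hD : 0 ≤ D)
    (h : ℝ) : Continuous (eqh p h) := by
  have h1 := ecl_cont hp hD
  unfold eqh
  exact ((h1.comp (continuous_abs.add continuous_const)).sub
    (h1.comp continuous_abs)).div_const _

theorem eqh_neg (p : ℝ → ℝ) (h t : ℝ) : eqh p h (-t) = eqh p h t := by
  unfold eqh
  rw [abs_neg]

theorem eqh_le {p : ℝ → ℝ} {D : ℝ}
    (hp : ∀ x ∈ Icc (0 : ℝ) 1, ∀ y ∈ Icc (0 : ℝ) 1, |p x - p y| ≤ D * |x - y|) (hD : 0 ≤ D)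
    {h : ℝ} (hh : 0 < h) (t : ℝ) : |eqh p h t| ≤ D := by
  unfold eqh
  rw [abs_div, abs_of_pos hh, div_le_iff₀ hh]
  refine (ecl_lip hp hD _ _).trans (le_of_eq ?_)
  rw [add_sub_cancel_left, abs_of_pos hh]

theorem eqh_tendsto {p g : ℝ → ℝ}
    (hg : ∀ y ∈ Ioo (0 : ℝ) 1, HasDerivWithinAt p (g y) (Ioi y) y) {y : ℝ}
    (hy : y ∈ Ioo (0 : ℝ) 1) :
    Tendsto (fun j : ℕ => eqh p (1 / ((j : ℝ) + 1)) y) atTop (𝓝 (g y)) := by
  have h0 : Tendsto (fun j : ℕ => 1 / ((j : ℝ) + 1)) atTop (𝓝 0) :=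
    tendsto_one_div_add_atTop_nhds_zero_nat
  have h1 := (hasDerivWithinAt_iff_tendsto_slope' (by simp)).1 (hg y hy)
  have h2 : Tendsto (fun j : ℕ => y + 1 / ((j : ℝ) + 1)) atTop (𝓝[Ioi y] y) := by
    rw [tendsto_nhdsWithin_iff]
    refine ⟨by simpa using h0.const_add y, Eventually.of_forall fun j => ?_⟩
    have : (0 : ℝ) < 1 / ((j : ℝ) + 1) := by positivity
    simp only [mem_Ioi]
    linarith
  refine (h1.comp h2).congr' ?_
  filter_upwards [(tendsto_order.1 h0).2 (1 - y) (by linarith [hy.2])] with j hj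
  have h3 : (0 : ℝ) < 1 / ((j : ℝ) + 1) := by positivity
  have h4 := hy.1
  simp only [Function.comp_apply, slope_def_field, eqh]
  rw [abs_of_pos h4, ecl_eq (by linarith) (by linarith), ecl_eq h4.le hy.2.le,
    add_sub_cancel_left]

theorem fish_ae : ∀ᵐ x : ℝ, x ≠ 1 := by
  simp [ae_iff, measure_singleton]

theorem fish_g_int {p g : ℝ → ℝ} {D : ℝ}
    (hp : ∀ x ∈ Icc (0 : ℝ) 1, ∀ y ∈ Icc (0 : ℝ) 1, |p x - p y| ≤ D * |x - y|) (hD : 0 ≤ D)
    (hg : ∀ y ∈ Ioo (0 : ℝ) 1, HasDerivWithinAt p (g y) (Ioi y) y) :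
    IntervalIntegrable g volume 0 1 := by
  rw [intervalIntegrable_iff_integrableOn_Ioo_of_le zero_le_one]
  refine Integrable.of_bound (C := D) ?_ ?_
  · refine aestronglyMeasurable_of_tendsto_ae (u := atTop)
      (f := fun j : ℕ => eqh p (1 / ((j : ℝ) + 1)))
      (fun j => (eqh_cont hp hD _).aestronglyMeasurable) ?_
    rw [ae_restrict_iff' measurableSet_Ioo]
    exact Eventually.of_forall fun y hy => eqh_tendsto hg hy
  · rw [ae_restrict_iff' measurableSet_Ioo]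
    refine Eventually.of_forall fun y hy => ?_
    have h1 := (eqh_tendsto hg hy).abs
    exact le_of_tendsto h1 (Eventually.of_forall fun j => eqh_le hp hD (by positivity) y)

/-- the primitive of the difference quotient -/
noncomputable def ePh (p : ℝ → ℝ) (h y : ℝ) : ℝ := ∫ t in (0 : ℝ)..y, eqh p h t

theorem ePh_deriv {p : ℝ → ℝ} {D : ℝ}
    (hp : ∀ x ∈ Icc (0 : ℝ) 1, ∀ y ∈ Icc (0 : ℝ) 1, |p x - p y| ≤ D * |x - y|) (hD : 0 ≤ D)
    (h y : ℝ) : HasDerivAt (ePh p h) (eqh p h y) y :=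
  ((eqh_cont hp hD h).integral_hasStrictDerivAt 0 y).hasDerivAt

theorem ePh_cont {p : ℝ → ℝ} {D : ℝ}
    (hp : ∀ x ∈ Icc (0 : ℝ) 1, ∀ y ∈ Icc (0 : ℝ) 1, |p x - p y| ≤ D * |x - y|) (hD : 0 ≤ D)
    (h : ℝ) : Continuous (ePh p h) :=
  continuous_iff_continuousAt.2 fun y => (ePh_deriv hp hD h y).continuousAt

theorem ePh_neg (p : ℝ → ℝ) (h y : ℝ) : ePh p h (-y) = - ePh p h y := by
  unfold ePh
  have h1 := intervalIntegral.integral_comp_neg (a := (0 : ℝ)) (b := y) (eqh p h)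
  simp only [eqh_neg, neg_zero] at h1
  rw [h1, intervalIntegral.integral_symm]

theorem ePh_le {p : ℝ → ℝ} {D : ℝ}
    (hp : ∀ x ∈ Icc (0 : ℝ) 1, ∀ y ∈ Icc (0 : ℝ) 1, |p x - p y| ≤ D * |x - y|) (hD : 0 ≤ D)
    {h : ℝ} (hh : 0 < h) {y : ℝ} (hy : y ∈ Icc (0 : ℝ) 1) : |ePh p h y| ≤ D := by
  unfold ePh
  have h1 := intervalIntegral.norm_integral_le_of_norm_le_const (a := (0 : ℝ)) (b := y) (C := D)
    (f := eqh p h) fun x _ => eqh_le hp hD hh x
  rw [Real.norm_eq_abs, sub_zero, abs_of_nonneg hy.1] at h1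
  exact h1.trans (mul_le_of_le_one_right hD hy.2)

theorem ePh_tendsto {p g : ℝ → ℝ} {D : ℝ} (hp0 : p 0 = 0)
    (hp : ∀ x ∈ Icc (0 : ℝ) 1, ∀ y ∈ Icc (0 : ℝ) 1, |p x - p y| ≤ D * |x - y|) (hD : 0 ≤ D)
    (hg : ∀ y ∈ Ioo (0 : ℝ) 1, HasDerivWithinAt p (g y) (Ioi y) y) {y : ℝ}
    (hy : y ∈ Ioo (0 : ℝ) 1) :
    Tendsto (fun j : ℕ => ePh p (1 / ((j : ℝ) + 1)) y) atTop (𝓝 (p y)) := by
  have hpc : ContinuousOn p (Icc 0 y) :=
    (ecl_cont hp hD).continuousOn.congr fun x hx => (ecl_eq hx.1 (hx.2.trans hy.2.le)).symm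
  have h1 : ∫ t in (0 : ℝ)..y, g t = p y := by
    rw [intervalIntegral.integral_eq_sub_of_hasDeriv_right_of_le hy.1.le hpc
      (fun x hx => hg x ⟨hx.1, hx.2.trans hy.2⟩) ((fish_g_int hp hD hg).mono_set ?_), hp0,
      sub_zero]
    rw [uIcc_of_le hy.1.le, uIcc_of_le zero_le_one]
    exact Icc_subset_Icc_right hy.2.le
  rw [← h1]
  unfold ePh
  refine intervalIntegral.tendsto_integral_filter_of_dominated_convergence (fun _ => D)
    (Eventually.of_forall fun j => (eqh_cont hp hD _).aestronglyMeasurable)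
    (Eventually.of_forall fun j => Eventually.of_forall fun x _ => eqh_le hp hD (by positivity) x)
    (by simp) ?_
  refine Eventually.of_forall fun x hx => ?_
  rw [uIoc_of_le hy.1.le] at hx
  exact eqh_tendsto hg ⟨hx.1, hx.2.trans_lt hy.2⟩

theorem fish_half {n : ℕ} {f : ℝ → ℝ} (hf : Fish n f) (he : ∀ y, f (-y) = f y)
    (hi : IntervalIntegrable f volume 0 1) (h0 : ∀ y ∈ Icc (0 : ℝ) 1, 0 ≤ f y)
    {C : ℝ} (hC : ∀ y ∈ Icc (0 : ℝ) 1, f y ≤ C) {p g : ℝ → ℝ} {D : ℝ} (hp0 : p 0 = 0)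
    (hp : ∀ x ∈ Icc (0 : ℝ) 1, ∀ y ∈ Icc (0 : ℝ) 1, |p x - p y| ≤ D * |x - y|)
    (hg : ∀ y ∈ Ioo (0 : ℝ) 1, HasDerivWithinAt p (g y) (Ioi y) y) :
    (∫ y in (0 : ℝ)..1, g y * f y) ^ 2 ≤ (∫ y in (0 : ℝ)..1, f y) *
      ∫ y in (0 : ℝ)..1, ((n : ℝ) * p y ^ 2 + 2 * y * p y * g y) * f y := by
  have hD : 0 ≤ D := by
    have h1 := hp 0 ⟨le_rfl, zero_le_one⟩ 1 ⟨zero_le_one, le_rfl⟩
    have h2 := (abs_nonneg _).trans h1
    simpa using h2
  have hC0 : 0 ≤ C := (h0 0 ⟨le_rfl, zero_le_one⟩).trans (hC 0 ⟨le_rfl, zero_le_one⟩)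
  have hfm : AEStronglyMeasurable f (volume.restrict (uIoc (0 : ℝ) 1)) :=
    hi.aestronglyMeasurable_restrict_uIoc
  have hfle : ∀ y ∈ Icc (0 : ℝ) 1, |f y| ≤ C := fun y hy => by
    rw [abs_of_nonneg (h0 y hy)]; exact hC y hy
  -- the inequality for the smooth functions
  have key : ∀ j : ℕ, (∫ y in (0 : ℝ)..1, eqh p (1 / ((j : ℝ) + 1)) y * f y) ^ 2 ≤
      (∫ y in (0 : ℝ)..1, f y) * ∫ y in (0 : ℝ)..1, ((n : ℝ) * ePh p (1 / ((j : ℝ) + 1)) y ^ 2 +
        2 * y * ePh p (1 / ((j : ℝ) + 1)) y * eqh p (1 / ((j : ℝ) + 1)) y) * f y := by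
    intro j
    set h : ℝ := 1 / ((j : ℝ) + 1)
    have cq := eqh_cont hp hD h
    have cP := ePh_cont hp hD h
    have h1 := hf (ePh p h) (eqh p h) (ePh_deriv hp hD h) cq
    rw [integral_even_eq he hi, integral_even_eq (f := fun y => eqh p h y * f y)
      (fun y => by simp only [eqh_neg, he]) (hi.continuousOn_mul cq.continuousOn),
      integral_even_eq (f := fun y => ((n : ℝ) * ePh p h y ^ 2 + 2 * y * ePh p h y * eqh p h y) * f y)
        (fun y => by simp only [eqh_neg, ePh_neg, he]; ring)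
        (hi.continuousOn_mul (Continuous.continuousOn (by fun_prop)))] at h1
    linarith
  -- limits
  have l1 : Tendsto (fun j : ℕ => ∫ y in (0 : ℝ)..1, eqh p (1 / ((j : ℝ) + 1)) y * f y) atTop
      (𝓝 (∫ y in (0 : ℝ)..1, g y * f y)) := by
    refine intervalIntegral.tendsto_integral_filter_of_dominated_convergence (fun _ => D * C)
      (Eventually.of_forall fun j => (eqh_cont hp hD _).aestronglyMeasurable.mul hfm)
      (Eventually.of_forall fun j => Eventually.of_forall fun x hx => ?_) (by simp) ?_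
    · rw [uIoc_of_le zero_le_one] at hx
      rw [norm_mul]
      exact mul_le_mul (eqh_le hp hD (by positivity) x) (hfle x ⟨hx.1.le, hx.2⟩) (norm_nonneg _) hD
    · filter_upwards [fish_ae] with x hx1 hx
      rw [uIoc_of_le zero_le_one] at hx
      exact (eqh_tendsto hg ⟨hx.1, lt_of_le_of_ne hx.2 hx1⟩).mul_const _
  have l2 : Tendsto (fun j : ℕ => ∫ y in (0 : ℝ)..1, ((n : ℝ) * ePh p (1 / ((j : ℝ) + 1)) y ^ 2 +
        2 * y * ePh p (1 / ((j : ℝ) + 1)) y * eqh p (1 / ((j : ℝ) + 1)) y) * f y) atTop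
      (𝓝 (∫ y in (0 : ℝ)..1, ((n : ℝ) * p y ^ 2 + 2 * y * p y * g y) * f y)) := by
    refine intervalIntegral.tendsto_integral_filter_of_dominated_convergence
      (fun _ => ((n : ℝ) * D ^ 2 + 2 * D * D) * C)
      (Eventually.of_forall fun j => ?_)
      (Eventually.of_forall fun j => Eventually.of_forall fun x hx => ?_) (by simp) ?_
    · have cq := eqh_cont hp hD (1 / ((j : ℝ) + 1))
      have cP := ePh_cont hp hD (1 / ((j : ℝ) + 1))
      exact (Continuous.aestronglyMeasurable (by fun_prop)).mul hfm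
    · rw [uIoc_of_le zero_le_one] at hx
      have b1 := eqh_le hp hD (h := 1 / ((j : ℝ) + 1)) (by positivity) x
      have b2 := ePh_le hp hD (h := 1 / ((j : ℝ) + 1)) (by positivity) ⟨hx.1.le, hx.2⟩
      rw [norm_mul]
      refine mul_le_mul ?_ (hfle x ⟨hx.1.le, hx.2⟩) (norm_nonneg _) (by positivity)
      refine (norm_add_le _ _).trans (add_le_add ?_ ?_)
      · rw [norm_mul, norm_pow, Real.norm_eq_abs, Real.norm_eq_abs, Nat.abs_cast]
        exact mul_le_mul_of_nonneg_left (pow_le_pow_left₀ (abs_nonneg _) b2 2) (Nat.cast_nonneg _)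
      · rw [norm_mul, norm_mul, norm_mul, Real.norm_eq_abs, Real.norm_eq_abs, Real.norm_eq_abs,
          Real.norm_eq_abs, abs_of_pos (zero_lt_two' ℝ), abs_of_pos hx.1]
        have b3 : 2 * x * |ePh p (1 / ((j : ℝ) + 1)) x| ≤ 2 * D := by
          have : x * |ePh p (1 / ((j : ℝ) + 1)) x| ≤ 1 * D :=
            mul_le_mul hx.2 b2 (abs_nonneg _) zero_le_one
          linarith
        exact mul_le_mul b3 b1 (abs_nonneg _) (by positivity)
    · filter_upwards [fish_ae] with x hx1 hx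
      rw [uIoc_of_le zero_le_one] at hx
      have hx' : x ∈ Ioo (0 : ℝ) 1 := ⟨hx.1, lt_of_le_of_ne hx.2 hx1⟩
      have t1 := eqh_tendsto hg hx'
      have t2 := ePh_tendsto hp0 hp hD hg hx'
      exact (((t2.pow 2).const_mul _).add ((t2.const_mul _).mul t1)).mul_const _
  exact le_of_tendsto_of_tendsto' (l1.pow 2) (l2.const_mul _) key

end Vale.Agent.P237.Alm
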