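import Vale.Agent.P237.Alm.Ints
import Vale.Agent.P237.Alm.Ext

/-!
# P237, almost Petty: the cut-off test function
-/

open MeasureTheory Metric Set Module Filter Real
open scoped Topology

namespace Vale.Agent.P237.Alm

open AllN

theorem lip_of_right_deriv {p g : ℝ → ℝ} {D : ℝ} (hc : ContinuousOn p (Icc 0 1))
    (hg : ∀ y ∈ Ioo (0 : ℝ) 1, HasDerivWithinAt p (g y) (Ioi y) y)
    (hb : ∀ y ∈ Ioo (0 : ℝ) 1, |g y| ≤ D) :
    ∀ x ∈ Icc (0 : ℝ) 1, ∀ y ∈ Icc (0 : ℝ) 1, |p x - p y| ≤ D * |x - y| := by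
  have key : ∀ x y : ℝ, 0 < x → x ≤ y → y ≤ 1 → |p y - p x| ≤ D * (y - x) := by
    intro x y hx hxy hy
    have h := norm_image_sub_le_of_norm_deriv_right_le_segment (f := p) (f' := g) (a := x)
      (b := y) (C := D) (hc.mono (Icc_subset_Icc hx.le hy))
      (fun z hz => (hg z ⟨hx.trans_le hz.1, hz.2.trans_le hy⟩).Ici_of_Ioi)
      (fun z hz => hb z ⟨hx.trans_le hz.1, hz.2.trans_le hy⟩) y ⟨hxy, le_rfl⟩
    exact h
  have key0 : ∀ x y : ℝ, 0 ≤ x → x ≤ y → y ≤ 1 → |p y - p x| ≤ D * (y - x) := by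
    intro x y hx hxy hy
    rcases eq_or_lt_of_le hx with h0 | h0
    · rcases eq_or_lt_of_le hxy with h1 | h1
      · rw [h1]; simp
      · rw [← h0] at h1 ⊢
        have hc0 : Tendsto p (𝓝[>] 0) (𝓝 (p 0)) := by
          have := hc 0 ⟨le_rfl, zero_le_one⟩
          refine this.mono_left ?_
          have : 𝓝[>] (0 : ℝ) = 𝓝[Ioo 0 1] 0 := (nhdsWithin_Ioo_eq_nhdsGT zero_lt_one).symm
          rw [this]
          exact nhdsWithin_mono _ Ioo_subset_Icc_self
        have t1 : Tendsto (fun x => |p y - p x|) (𝓝[>] 0) (𝓝 |p y - p 0|) :=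
          (tendsto_const_nhds.sub hc0).abs
        have t2 : Tendsto (fun x : ℝ => D * (y - x)) (𝓝[>] 0) (𝓝 (D * (y - 0))) := by
          refine Tendsto.mono_left ?_ nhdsWithin_le_nhds
          exact (tendsto_const_nhds.sub tendsto_id).const_mul D
        refine le_of_tendsto_of_tendsto t1 t2 ?_
        filter_upwards [Ioo_mem_nhdsGT h1] with z hz
        exact key z y hz.1 hz.2.le hy
    · exact key x y h0 hxy hy
  intro x hx y hy
  rcases le_total x y with h | h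
  · rw [abs_sub_comm (p x), abs_sub_comm x, abs_of_nonneg (by linarith : 0 ≤ y - x)]
    exact key0 x y hx.1 h hy.2
  · rw [abs_of_nonneg (by linarith only [h] : 0 ≤ x - y)]
    exact key0 y x hy.1 h hx.2

/-- the test function: transported up to `y1`, then linear -/
noncomputable def ph (m : ℕ) (r al : ℝ → ℝ) (y1 P1 y : ℝ) : ℝ :=
  if y ≤ y1 then tan (al (vv m r y)) else
    tan (al (vv m r y1)) + (P1 - tan (al (vv m r y1))) / (1 - y1) * (y - y1)

/-- its right derivative -/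
noncomputable def gh (m : ℕ) (r al : ℝ → ℝ) (y1 P1 y : ℝ) : ℝ :=
  if y < y1 then cZ m / cos (al (vv m r y)) ^ (m + 1) * vd m r y else
    (P1 - tan (al (vv m r y1))) / (1 - y1)

variable {m : ℕ} {r : ℝ → ℝ} (hr : IsProf r) {al : ℝ → ℝ} (ha : IsAngle m al)

include hr ha

theorem ph_zero {y1 P1 : ℝ} (h0 : 0 < y1) : ph m r al y1 P1 0 = 0 := by
  unfold ph
  rw [if_pos h0.le, vv_zero, ha.zero, tan_zero]

theorem gh_has (hm : 1 ≤ m) {y1 P1 : ℝ} (h0 : 0 < y1) (h1 : y1 < 1) {y : ℝ}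
    (hy : y ∈ Ioo (0 : ℝ) 1) :
    HasDerivWithinAt (ph m r al y1 P1) (gh m r al y1 P1 y) (Ioi y) y := by
  by_cases hc : y < y1
  · have e := tan_has hr ha hm hy
    unfold gh
    rw [if_pos hc]
    refine e.congr_of_eventuallyEq ?_ ?_
    · filter_upwards [Ioo_mem_nhdsGT hc] with z hz
      unfold ph
      rw [if_pos hz.2.le]
    · unfold ph
      rw [if_pos hc.le]
  · unfold gh
    rw [if_neg hc]
    push Not at hc
    have e : HasDerivWithinAt (fun y => tan (al (vv m r y1)) +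
        (P1 - tan (al (vv m r y1))) / (1 - y1) * (y - y1))
        ((P1 - tan (al (vv m r y1))) / (1 - y1)) (Ioi y) y := by
      have := (((hasDerivWithinAt_id y (Ioi y)).sub_const y1).const_mul
        ((P1 - tan (al (vv m r y1))) / (1 - y1))).const_add (tan (al (vv m r y1)))
      simpa only [hasDerivWithinAt_Ioi_iff_Ici, hasDerivWithinAt_const_add_iff, id_eq, mul_one] using this
    refine e.congr ?_ ?_
    · intro z hz
      unfold ph
      rw [if_neg (not_le.2 (hc.trans_lt hz))]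
    · unfold ph
      rcases eq_or_lt_of_le hc with h | h
      · rw [if_pos h.symm.le, ← h]
        simp
      · rw [if_neg (not_le.2 h)]

theorem ph_cont (hm : 1 ≤ m) {y1 P1 : ℝ} (h0 : 0 < y1) (h1 : y1 < 1) :
    ContinuousOn (ph m r al y1 P1) (Icc 0 1) := by
  have e : Icc (0 : ℝ) 1 = Icc 0 y1 ∪ Icc y1 1 := (Icc_union_Icc_eq_Icc h0.le h1.le).symm
  rw [e]
  refine ContinuousOn.union_of_isClosed ?_ ?_ isClosed_Icc isClosed_Icc
  · refine ((tan_cont hr ha hm).mono fun y hy => ⟨hy.1, hy.2.trans_lt h1⟩).congr fun y hy => ?_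
    unfold ph
    rw [if_pos hy.2]
  · have hc : ContinuousOn (fun y => tan (al (vv m r y1)) +
        (P1 - tan (al (vv m r y1))) / (1 - y1) * (y - y1)) (Icc y1 1) := by (clear * -; fun_prop)
    refine hc.congr fun y hy => ?_
    unfold ph
    rcases eq_or_lt_of_le hy.1 with h | h
    · rw [if_pos h.symm.le, ← h]
      simp
    · rw [if_neg (not_le.2 h)]

theorem gh_bdd (hm : 1 ≤ m) {y1 P1 : ℝ} (h0 : 0 < y1) (h1 : y1 < 1) :
    ∃ D : ℝ, ∀ y ∈ Ioo (0 : ℝ) 1, |gh m r al y1 P1 y| ≤ D := by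
  have hsub : Icc 0 y1 ⊆ Ico (0 : ℝ) 1 := fun y hy => ⟨hy.1, hy.2.trans_lt h1⟩
  have hcc : ContinuousOn (fun y => cZ m / cos (al (vv m r y)) ^ (m + 1)) (Icc 0 y1) := by
    have : ContinuousOn (fun y => cos (al (vv m r y))) (Icc 0 y1) :=
      continuous_cos.comp_continuousOn ((aa_cont hr ha hm).mono hsub)
    exact continuousOn_const.div (this.pow _) fun y hy =>
      (pow_pos (aa_cos_pos hr ha hm (hsub hy)) _).ne'
  obtain ⟨M, hM⟩ := isCompact_Icc.exists_bound_of_continuousOn hcc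
  have hM0 : 0 ≤ M := (norm_nonneg _).trans (hM 0 ⟨le_rfl, h0.le⟩)
  have hIp := hI_pos (m := m) hr
  set V : ℝ := (m : ℝ) * r 0 ^ (m - 1) * (r 0 - rd r y1) / (((m : ℝ) + 1) * hI m r) with hV
  have hr0 : 0 ≤ r 0 := prof_nn hr ⟨le_rfl, zero_le_one⟩
  have hd1 : rd r y1 ≤ 0 := rd_nonpos hr ⟨h0.le, h1⟩
  have hV0 : 0 ≤ V := by
    rw [hV]
    have : 0 ≤ r 0 - rd r y1 := by linarith only [hr0, hd1]
    (clear * - hm hr0 this hIp; positivity)
  have hvd : ∀ y ∈ Ioo (0 : ℝ) y1, vd m r y ≤ V := by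
    intro y hy
    rw [hV]
    unfold vd
    have hy1 : y ∈ Icc (0 : ℝ) 1 := ⟨hy.1.le, (hy.2.trans h1).le⟩
    have e1 := prof_le_zero hr hy1
    have e2 : rd r y1 ≤ rd r y := rd_anti hr ⟨by linarith only [hy.1], hy.2.trans h1⟩
      ⟨by linarith only [h0], h1⟩ hy.2.le
    have e3 := rd_nonpos hr (y := y) ⟨hy.1.le, hy.2.trans h1⟩
    have e4 : r y - y * rd r y ≤ r 0 - rd r y1 := by nlinarith only [e1, h1, hd1, e2, hy.1, hy.2]
    have e5 : 0 ≤ r y - y * rd r y := by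
      have := mul_nonneg hy.1.le (neg_nonneg.2 e3)
      have := prof_nn hr hy1
      linarith
    have e6 := prof_nn hr hy1
    have e7 : 0 ≤ r 0 - rd r y1 := by linarith only [hr0, hd1]
    refine div_le_div_of_nonneg_right ?_ (by positivity)
    refine mul_le_mul ?_ e4 e5 (by (clear * - hm hr0; positivity))
    exact mul_le_mul_of_nonneg_left (pow_le_pow_left₀ e6 e1 _) (by positivity)
  refine ⟨max (M * V) |(P1 - tan (al (vv m r y1))) / (1 - y1)|, fun y hy => ?_⟩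
  unfold gh
  split_ifs with hc
  · refine le_trans ?_ (le_max_left _ _)
    rw [abs_mul, abs_of_nonneg (vd_nonneg (m := m) hr ⟨hy.1.le, hy.2⟩)]
    exact mul_le_mul (hM y ⟨hy.1.le, hc.le⟩) (hvd y ⟨hy.1, hc⟩)
      (vd_nonneg hr ⟨hy.1.le, hy.2⟩) hM0
  · exact le_max_right _ _

/-- the interior parts of the integrands are integrable -/
theorem A_ii (hm : 1 ≤ m) {y1 : ℝ} (h0 : 0 ≤ y1) (h1 : y1 < 1) :
    IntervalIntegrable (fun y => (cZ m / cos (al (vv m r y)) ^ (m + 1) * vd m r y) *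
      r y ^ m) volume 0 y1 := by
  have hsub : Icc 0 y1 ⊆ Ico (0 : ℝ) 1 := fun y hy => ⟨hy.1, hy.2.trans_lt h1⟩
  have hrc := prof_contOn hr h1
  have hcc : ContinuousOn (fun y => cos (al (vv m r y))) (Icc 0 y1) :=
    continuous_cos.comp_continuousOn ((aa_cont hr ha hm).mono hsub)
  have := ii_mul_vd (m := m) hr h0 h1 (c := fun y => cZ m / cos (al (vv m r y)) ^ (m + 1) *
      r y ^ m) ((continuousOn_const.div (hcc.pow _) fun y hy =>
        (pow_pos (aa_cos_pos hr ha hm (hsub hy)) _).ne').mul (hrc.pow m))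
  refine this.congr fun y _ => ?_
  ring

theorem Q_ii (hm : 1 ≤ m) {y1 : ℝ} (h0 : 0 ≤ y1) (h1 : y1 < 1) :
    IntervalIntegrable (fun y => (((m + 1 : ℕ) : ℝ) * tan (al (vv m r y)) ^ 2 +
        2 * y * tan (al (vv m r y)) *
          (cZ m / cos (al (vv m r y)) ^ (m + 1) * vd m r y)) * r y ^ m) volume 0 y1 := by
  have hsub : Icc 0 y1 ⊆ Ico (0 : ℝ) 1 := fun y hy => ⟨hy.1, hy.2.trans_lt h1⟩
  have hrc := prof_contOn hr h1
  have htc := (tan_cont hr ha hm).mono hsub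
  have hcc : ContinuousOn (fun y => cos (al (vv m r y))) (Icc 0 y1) :=
    continuous_cos.comp_continuousOn ((aa_cont hr ha hm).mono hsub)
  have e : (fun y => (((m + 1 : ℕ) : ℝ) * tan (al (vv m r y)) ^ 2 +
        2 * y * tan (al (vv m r y)) *
          (cZ m / cos (al (vv m r y)) ^ (m + 1) * vd m r y)) * r y ^ m) = fun y =>
        ((m + 1 : ℕ) : ℝ) * tan (al (vv m r y)) ^ 2 * r y ^ m +
        (2 * y * tan (al (vv m r y)) * (cZ m / cos (al (vv m r y)) ^ (m + 1)) * r y ^ m) *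
          vd m r y := by
    funext y
    ring
  rw [e]
  refine IntervalIntegrable.add ?_ (ii_mul_vd hr h0 h1 ?_)
  · apply ContinuousOn.intervalIntegrable
    rw [uIcc_of_le h0]
    exact (continuousOn_const.mul (htc.pow 2)).mul (hrc.pow m)
  · refine (((continuousOn_const.mul continuousOn_id).mul htc).mul ?_).mul (hrc.pow m)
    exact continuousOn_const.div (hcc.pow _) fun y hy =>
      (pow_pos (aa_cos_pos hr ha hm (hsub hy)) _).ne'

/-- left side of the test -/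
theorem lhs_eq (hm : 1 ≤ m) {y1 P1 : ℝ} (h0 : 0 < y1) (h1 : y1 < 1) :
    ∫ y in (0 : ℝ)..1, gh m r al y1 P1 y * r y ^ m =
      (∫ y in (0 : ℝ)..y1, (cZ m / cos (al (vv m r y)) ^ (m + 1) * vd m r y) * r y ^ m) +
      (P1 - tan (al (vv m r y1))) / (1 - y1) * ∫ y in y1..1, r y ^ m := by
  have e1 : EqOn (fun y => (cZ m / cos (al (vv m r y)) ^ (m + 1) * vd m r y) * r y ^ m)
      (fun y => gh m r al y1 P1 y * r y ^ m) (Ioo 0 y1) := by
    intro y hy
    simp only [gh, if_pos hy.2]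
  have e2 : EqOn (fun y => (P1 - tan (al (vv m r y1))) / (1 - y1) * r y ^ m)
      (fun y => gh m r al y1 P1 y * r y ^ m) (Ioo y1 1) := by
    intro y hy
    simp only [gh, if_neg (not_lt.2 hy.1.le)]
  have i2 : IntervalIntegrable (fun y => r y ^ m) volume y1 1 :=
    prof_pow_ii hr m ⟨h0.le, h1.le⟩ ⟨zero_le_one, le_rfl⟩
  rw [← intervalIntegral.integral_const_mul, intervalIntegral.integral_congr_Ioo_of_le h0.le e1,
    intervalIntegral.integral_congr_Ioo_of_le h1.le e2,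
    intervalIntegral.integral_add_adjacent_intervals]
  · exact (A_ii hr ha hm h0.le h1).congr_uIoo (by rwa [uIoo_of_le h0.le])
  · exact (i2.const_mul _).congr_uIoo (by rwa [uIoo_of_le h1.le])

/-- right side of the test -/
theorem rhs_le (hm : 3 ≤ m) {y1 P1 : ℝ} (h0 : 0 < y1) (h1 : y1 < 1)
    (hP : tan (al (vv m r y1)) ≤ P1) :
    ∫ y in (0 : ℝ)..1, (((m + 1 : ℕ) : ℝ) * ph m r al y1 P1 y ^ 2 +
        2 * y * ph m r al y1 P1 y * gh m r al y1 P1 y) * r y ^ m ≤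
      ((m : ℝ) + 1) * hI m r / cZ m *
        (∫ β in (0 : ℝ)..(al (vv m r y1)), sin β ^ 2 * cos β ^ (m - 3)) +
      r y1 ^ m * (P1 ^ 2 * (1 + ((m : ℝ) + 1) * (1 - y1))) := by
  have hm1 : 1 ≤ m := by omega
  set t1 : ℝ := tan (al (vv m r y1)) with ht1
  have hal := aa_mem hr ha hm1 (y := y1) ⟨h0.le, h1⟩
  have ht0 : 0 ≤ t1 := tan_nonneg_of_nonneg_of_le_pi_div_two hal.1 hal.2.le
  set s : ℝ := (P1 - t1) / (1 - y1) with hs
  have hy1 : 0 < 1 - y1 := by linarith only [h1]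
  have hs0 : 0 ≤ s := div_nonneg (by linarith only [hP]) hy1.le
  have e1 : EqOn (fun y => (((m + 1 : ℕ) : ℝ) * tan (al (vv m r y)) ^ 2 +
        2 * y * tan (al (vv m r y)) *
          (cZ m / cos (al (vv m r y)) ^ (m + 1) * vd m r y)) * r y ^ m)
      (fun y => (((m + 1 : ℕ) : ℝ) * ph m r al y1 P1 y ^ 2 +
        2 * y * ph m r al y1 P1 y * gh m r al y1 P1 y) * r y ^ m) (Ioo 0 y1) := by
    intro y hy
    simp only [gh, ph, if_pos hy.2, if_pos hy.2.le]
  have e2 : EqOn (fun y => (((m + 1 : ℕ) : ℝ) * (t1 + s * (y - y1)) ^ 2 +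
        2 * y * (t1 + s * (y - y1)) * s) * r y ^ m)
      (fun y => (((m + 1 : ℕ) : ℝ) * ph m r al y1 P1 y ^ 2 +
        2 * y * ph m r al y1 P1 y * gh m r al y1 P1 y) * r y ^ m) (Ioo y1 1) := by
    intro y hy
    simp only [gh, ph, if_neg (not_lt.2 hy.1.le), if_neg (not_le.2 hy.1)]
    rfl
  have i2 : IntervalIntegrable (fun y => r y ^ m) volume y1 1 :=
    prof_pow_ii hr m ⟨h0.le, h1.le⟩ ⟨zero_le_one, le_rfl⟩
  have i3 : IntervalIntegrable (fun y => (((m + 1 : ℕ) : ℝ) * (t1 + s * (y - y1)) ^ 2 +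
        2 * y * (t1 + s * (y - y1)) * s) * r y ^ m) volume y1 1 :=
    i2.continuousOn_mul (by fun_prop)
  have hsum : (∫ y in (0 : ℝ)..1, (((m + 1 : ℕ) : ℝ) * ph m r al y1 P1 y ^ 2 +
        2 * y * ph m r al y1 P1 y * gh m r al y1 P1 y) * r y ^ m) =
      (∫ y in (0 : ℝ)..y1, (((m + 1 : ℕ) : ℝ) * tan (al (vv m r y)) ^ 2 +
        2 * y * tan (al (vv m r y)) *
          (cZ m / cos (al (vv m r y)) ^ (m + 1) * vd m r y)) * r y ^ m) +
      ∫ y in y1..1, (((m + 1 : ℕ) : ℝ) * (t1 + s * (y - y1)) ^ 2 +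
        2 * y * (t1 + s * (y - y1)) * s) * r y ^ m := by
    rw [intervalIntegral.integral_congr_Ioo_of_le h0.le e1,
      intervalIntegral.integral_congr_Ioo_of_le h1.le e2,
      intervalIntegral.integral_add_adjacent_intervals]
    · exact (Q_ii hr ha hm1 h0.le h1).congr_uIoo (by rwa [uIoo_of_le h0.le])
    · exact i3.congr_uIoo (by rwa [uIoo_of_le h1.le])
  rw [hsum, int_quad hr ha hm h0.le h1, ← ht1]
  have hf0 : 0 ≤ r y1 ^ m := pow_nonneg (prof_pos' hr ⟨h0.le, h1⟩).le m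
  have hcast : ((m + 1 : ℕ) : ℝ) = (m : ℝ) + 1 := by push_cast; ring
  have hramp : (∫ y in y1..1, (((m + 1 : ℕ) : ℝ) * (t1 + s * (y - y1)) ^ 2 +
        2 * y * (t1 + s * (y - y1)) * s) * r y ^ m) ≤
      r y1 ^ m * (((m : ℝ) + 1) * (1 - y1) * P1 ^ 2 + (P1 ^ 2 - t1 ^ 2)) := by
    have hval : ∫ y in y1..1, (((m : ℝ) + 1) * P1 ^ 2 + 2 * (t1 + s * (y - y1)) * s) * r y1 ^ m =
        r y1 ^ m * (((m : ℝ) + 1) * (1 - y1) * P1 ^ 2 + (P1 ^ 2 - t1 ^ 2)) := by
      rw [intervalIntegral.integral_eq_sub_of_hasDerivAt (f := fun y =>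
        (((m : ℝ) + 1) * P1 ^ 2 * y + (t1 + s * (y - y1)) ^ 2) * r y1 ^ m)]
      · have hP1 : t1 + s * (1 - y1) = P1 := by
          rw [hs]
          field_simp
          ring
        rw [hP1, sub_self, mul_zero, add_zero]
        ring
      · intro y _
        have a1 : HasDerivAt (fun y : ℝ => t1 + s * (y - y1)) s y := by
          simpa using (((hasDerivAt_id y).sub_const y1).const_mul s).const_add t1
        have a2 := ((((hasDerivAt_id y).const_mul (((m : ℝ) + 1) * P1 ^ 2)).add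
          (a1.pow 2)).mul_const (r y1 ^ m))
        refine (a2.congr_deriv ?_).congr_of_eventuallyEq ?_
        · simp only [mul_one, Nat.cast_ofNat, Nat.add_one_sub_one, pow_one]
        · exact Eventually.of_forall fun z => by simp
      · exact Continuous.intervalIntegrable (by fun_prop) _ _
    rw [← hval]
    refine intervalIntegral.integral_mono_on h1.le i3
      (Continuous.intervalIntegrable (by fun_prop) _ _) fun y hy => ?_
    have b0 : 0 ≤ y - y1 := by linarith only [hy.1]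
    have b1 : 0 ≤ t1 + s * (y - y1) := by (clear * - ht0 hP h1 b0; positivity)
    have b2 : t1 + s * (y - y1) ≤ P1 := by
      have : s * (y - y1) ≤ s * (1 - y1) := mul_le_mul_of_nonneg_left (by linarith only [hy.2]) hs0
      have h3 : s * (1 - y1) = P1 - t1 := by rw [hs]; (clear * - hy1; field_simp)
      linarith only [this, h3]
    have b3 : r y ^ m ≤ r y1 ^ m := by
      have q1 : y1 ∈ Icc (0 : ℝ) 1 := ⟨h0.le, h1.le⟩
      have q2 : y ∈ Icc (0 : ℝ) 1 := ⟨h0.le.trans hy.1, hy.2⟩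
      exact pow_le_pow_left₀ (prof_nn hr q2) (prof_anti hr q1 q2 hy.1) m
    have b4 : 0 ≤ r y ^ m := pow_nonneg (prof_nn hr ⟨h0.le.trans hy.1, hy.2⟩) m
    have b5 : (t1 + s * (y - y1)) ^ 2 ≤ P1 ^ 2 := pow_le_pow_left₀ b1 b2 2
    have b6 : 2 * y * (t1 + s * (y - y1)) * s ≤ 2 * (t1 + s * (y - y1)) * s := by
      have : 0 ≤ (t1 + s * (y - y1)) * s := mul_nonneg b1 hs0
      nlinarith only [this, hy.2]
    rw [hcast]
    have hy0 : 0 ≤ y := h0.le.trans hy.1
    refine mul_le_mul ?_ b3 b4 (by (clear * - hm ht0 hP h1 b0; positivity))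
    have : ((m : ℝ) + 1) * (t1 + s * (y - y1)) ^ 2 ≤ ((m : ℝ) + 1) * P1 ^ 2 :=
      mul_le_mul_of_nonneg_left b5 (by positivity)
    linarith only [b6, this]
  have hlast : t1 ^ 2 * (y1 * r y1 ^ m) ≤ t1 ^ 2 * r y1 ^ m :=
    mul_le_mul_of_nonneg_left (mul_le_of_le_one_left hf0 h1.le) (by (clear * -; positivity))
  linarith only [hramp, hlast]

end Vale.Agent.P237.Alm
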