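import Vale.Agent.P237.AllN.StepN

/-!
# P237, almost Petty in all dimensions: definitions
-/

open MeasureTheory Metric Set Module

namespace Vale.Agent.P237.Alm

open AllN

/-- Weak form of the bound `J ≤ 1` for the Fisher type functional of the density `f`. -/
def Fish (n : ℕ) (f : ℝ → ℝ) : Prop :=
  ∀ p p' : ℝ → ℝ, (∀ y, HasDerivAt p (p' y) y) → Continuous p' →
    (∫ y in (-1 : ℝ)..1, p' y * f y) ^ 2 ≤ (∫ y in (-1 : ℝ)..1, f y) *
      ∫ y in (-1 : ℝ)..1, ((n : ℝ) * p y ^ 2 + 2 * y * p y * p' y) * f y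

/-- The loss in one dimension step. -/
noncomputable def del (m : ℕ) : ℝ :=
  Real.sqrt (((m : ℝ) + 1) * ((m : ℝ) - 2)) / m * (aInt (m - 3) / aInt (m - 2))

/-- Petty's inequality in dimension `n` up to the factor `c`. -/
def PettyC (n : ℕ) (c : ℝ) : Prop :=
  ∀ (W : Type) [NormedAddCommGroup W] [InnerProductSpace ℝ W] [FiniteDimensional ℝ W]
    [MeasurableSpace W] [BorelSpace W],
    finrank ℝ W = n → ∀ S : Set W, IsBody S → c * RC n * vol S ^ (n - 1) ≤ vol (projBody S)

end Vale.Agent.P237.Alm
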