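import Vale.Agent.P237.Alm.Trans
import Vale.Agent.P237.Alm.Ang

/-!
# P237, almost Petty: the integrals of the transported test function
-/

open MeasureTheory Metric Set Module Filter Real
open scoped Topology

namespace Vale.Agent.P237.Alm

open AllN

theorem cZ_pos (m : ℕ) : 0 < cZ m := by
  unfold cZ
  refine intervalIntegral.intervalIntegral_pos_of_pos_on
    (Continuous.intervalIntegrable (by fun_prop) _ _) (fun β hβ => ?_) (by positivity)
  exact pow_pos (cos_pos_of_mem_Ioo ⟨by linarith [hβ.1, pi_pos], hβ.2⟩) _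

variable {m : ℕ} {r : ℝ → ℝ} (hr : IsProf r) {al : ℝ → ℝ} (ha : IsAngle m al)

include hr ha

/-- derivative of a primitive along the angle -/
theorem prim_has (hm : 1 ≤ m) {q : ℝ → ℝ} (hq : Continuous q) {y : ℝ} (hy : y ∈ Ioo (0 : ℝ) 1) :
    HasDerivWithinAt (fun y => ∫ β in (0 : ℝ)..(al (vv m r y)), q β)
      (q (al (vv m r y)) * (cZ m / cos (al (vv m r y)) ^ (m - 1) * vd m r y)) (Ioi y) y := by
  have h1 : HasDerivAt (fun u : ℝ => ∫ β in (0 : ℝ)..u, q β) (q (al (vv m r y)))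
      (al (vv m r y)) := (hq.integral_hasStrictDerivAt 0 _).hasDerivAt
  exact h1.comp_hasDerivWithinAt y (aa_has hr ha hm hy)

theorem prim_cont (hm : 1 ≤ m) {q : ℝ → ℝ} (hq : Continuous q) :
    ContinuousOn (fun y => ∫ β in (0 : ℝ)..(al (vv m r y)), q β) (Ico 0 1) := by
  have h1 : Continuous (fun u : ℝ => ∫ β in (0 : ℝ)..u, q β) :=
    intervalIntegral.continuous_primitive (fun a b => hq.intervalIntegrable a b) 0
  exact h1.comp_continuousOn (aa_cont hr ha hm)

theorem int_cos (hm : 2 ≤ m) {y1 : ℝ} (h0 : 0 ≤ y1) (h1 : y1 < 1) :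
    ∫ y in (0 : ℝ)..y1, 1 / cos (al (vv m r y)) * vd m r y =
      1 / cZ m * ∫ β in (0 : ℝ)..(al (vv m r y1)), cos β ^ (m - 2) := by
  have hsub : Icc 0 y1 ⊆ Ico (0 : ℝ) 1 := fun y hy => ⟨hy.1, hy.2.trans_lt h1⟩
  have hZ := cZ_pos m
  have h := intervalIntegral.integral_eq_sub_of_hasDeriv_right_of_le h0
    (f := fun y => 1 / cZ m * ∫ β in (0 : ℝ)..(al (vv m r y)), cos β ^ (m - 2))
    (f' := fun y => 1 / cos (al (vv m r y)) * vd m r y)
    (continuousOn_const.mul ((prim_cont hr ha (by omega) (by fun_prop)).mono hsub)) ?_ ?_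
  · rw [h, vv_zero, ha.zero]
    simp
  · intro y hy
    have hy1 : y ∈ Ioo (0 : ℝ) 1 := ⟨hy.1, hy.2.trans h1⟩
    have hc := aa_cos_pos hr ha (by omega) (y := y) ⟨hy1.1.le, hy1.2⟩
    refine ((prim_has hr ha (by omega) (q := fun β => cos β ^ (m - 2)) (by fun_prop)
      hy1).const_mul (1 / cZ m)).congr_deriv ?_
    obtain ⟨k, rfl⟩ : ∃ k, m = k + 2 := ⟨m - 2, by omega⟩
    simp only [show k + 2 - 1 = k + 1 by omega, show k + 2 - 2 = k by omega]
    field_simp
    ring
  · refine ii_mul_vd hr h0 h1 ?_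
    refine continuousOn_const.div ?_ fun y hy => (aa_cos_pos hr ha (by omega) (hsub hy)).ne'
    exact continuous_cos.comp_continuousOn ((aa_cont hr ha (by omega)).mono hsub)

omit ha in
theorem int_inv (hm : 2 ≤ m) {y1 : ℝ} (h0 : 0 ≤ y1) (h1 : y1 < 1) :
    ∫ y in (0 : ℝ)..y1, 1 / r y * vd m r y =
      (m : ℝ) / (((m : ℝ) + 1) * hI m r) * ((m : ℝ) / ((m : ℝ) - 1) *
        (∫ y in (0 : ℝ)..y1, r y ^ (m - 1)) - y1 * r y1 ^ (m - 1) / ((m : ℝ) - 1)) := by
  have hsub : Icc 0 y1 ⊆ Ico (0 : ℝ) 1 := fun y hy => ⟨hy.1, hy.2.trans_lt h1⟩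
  have hrc := prof_contOn hr h1
  have hIp := hI_pos (m := m) hr
  have hm1 : (1 : ℝ) < m := by exact_mod_cast hm
  have h := intervalIntegral.integral_eq_sub_of_hasDeriv_right_of_le h0
    (f := fun y => (m : ℝ) / (((m : ℝ) + 1) * hI m r) * ((m : ℝ) / ((m : ℝ) - 1) *
        (∫ y in (0 : ℝ)..y, r y ^ (m - 1)) - y * r y ^ (m - 1) / ((m : ℝ) - 1)))
    (f' := fun y => 1 / r y * vd m r y) ?_ ?_ ?_
  · rw [h]
    simp
  · refine continuousOn_const.mul ((continuousOn_const.mul ?_).sub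
      ((continuousOn_id.mul (hrc.pow _)).div_const _))
    exact (RR_cont (m := m - 1) hr).mono fun y hy => ⟨hy.1, hy.2.trans h1.le⟩
  · intro y hy
    have hy1 : y ∈ Ioo (0 : ℝ) 1 := ⟨hy.1, hy.2.trans h1⟩
    have hpos := prof_pos' hr (y := y) ⟨hy1.1.le, hy1.2⟩
    have e1 := (RR_has (m := m - 1) hr hy1).hasDerivWithinAt (s := Ioi y)
    have e2 := pow_rd hr (y := y) ⟨by linarith [hy1.1], hy1.2⟩ (m - 1)
    have e3 := (hasDerivWithinAt_id y (Ioi y)).mul e2
    have e4 := ((e1.const_mul ((m : ℝ) / ((m : ℝ) - 1))).sub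
      (e3.div_const ((m : ℝ) - 1))).const_mul ((m : ℝ) / (((m : ℝ) + 1) * hI m r))
    refine e4.congr_deriv ?_
    unfold vd
    obtain ⟨k, rfl⟩ : ∃ k, m = k + 2 := ⟨m - 2, by omega⟩
    simp only [show k + 2 - 1 = k + 1 by omega, show k + 1 - 1 = k by omega, id, one_mul]
    push_cast at hm1 ⊢
    have hk : (k : ℝ) + 2 - 1 ≠ 0 := by linarith
    have hk2 : (k : ℝ) + 2 + 1 ≠ 0 := by positivity
    field_simp
    ring
  · refine ii_mul_vd hr h0 h1 ?_
    exact continuousOn_const.div hrc fun y hy => (prof_pos' hr (hsub hy)).ne'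

theorem int_quad (hm : 3 ≤ m) {y1 : ℝ} (h0 : 0 ≤ y1) (h1 : y1 < 1) :
    ∫ y in (0 : ℝ)..y1, (((m + 1 : ℕ) : ℝ) * tan (al (vv m r y)) ^ 2 +
        2 * y * tan (al (vv m r y)) *
          (cZ m / cos (al (vv m r y)) ^ (m + 1) * vd m r y)) * r y ^ m =
      tan (al (vv m r y1)) ^ 2 * (y1 * r y1 ^ m) + ((m : ℝ) + 1) * hI m r / cZ m *
        ∫ β in (0 : ℝ)..(al (vv m r y1)), sin β ^ 2 * cos β ^ (m - 3) := by
  have hsub : Icc 0 y1 ⊆ Ico (0 : ℝ) 1 := fun y hy => ⟨hy.1, hy.2.trans_lt h1⟩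
  have hrc := prof_contOn hr h1
  have hIp := hI_pos (m := m) hr
  have hZ := cZ_pos m
  have htc := (tan_cont hr ha (by omega)).mono hsub
  have hcc : ContinuousOn (fun y => cos (al (vv m r y))) (Icc 0 y1) :=
    continuous_cos.comp_continuousOn ((aa_cont hr ha (by omega)).mono hsub)
  have h := intervalIntegral.integral_eq_sub_of_hasDeriv_right_of_le h0
    (f := fun y => tan (al (vv m r y)) ^ 2 * (y * r y ^ m) + ((m : ℝ) + 1) * hI m r / cZ m *
        ∫ β in (0 : ℝ)..(al (vv m r y)), sin β ^ 2 * cos β ^ (m - 3))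
    (f' := fun y => (((m + 1 : ℕ) : ℝ) * tan (al (vv m r y)) ^ 2 +
        2 * y * tan (al (vv m r y)) *
          (cZ m / cos (al (vv m r y)) ^ (m + 1) * vd m r y)) * r y ^ m) ?_ ?_ ?_
  · rw [h, vv_zero, ha.zero]
    simp
  · exact ((htc.pow 2).mul (continuousOn_id.mul (hrc.pow _))).add
      (continuousOn_const.mul ((prim_cont hr ha (by omega) (by fun_prop)).mono hsub))
  · intro y hy
    have hy1 : y ∈ Ioo (0 : ℝ) 1 := ⟨hy.1, hy.2.trans h1⟩
    have hc := aa_cos_pos hr ha (by omega) (y := y) ⟨hy1.1.le, hy1.2⟩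
    have e1 := (tan_has hr ha (by omega) hy1).pow 2
    have e2 := pow_rd hr (y := y) ⟨by linarith [hy1.1], hy1.2⟩ m
    have e3 := (hasDerivWithinAt_id y (Ioi y)).mul e2
    have e4 := (prim_has hr ha (by omega) (q := fun β => sin β ^ 2 * cos β ^ (m - 3))
      (by fun_prop) hy1).const_mul (((m : ℝ) + 1) * hI m r / cZ m)
    refine ((e1.mul e3).add e4).congr_deriv ?_
    have hcne := hc.ne'
    simp only [Pi.mul_apply, Pi.pow_apply, id, one_mul, Nat.add_one_sub_one, pow_one]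
    have ht : sin (al (vv m r y)) = tan (al (vv m r y)) * cos (al (vv m r y)) := by
      rw [tan_mul_cos hcne]
    rw [ht]
    generalize tan (al (vv m r y)) = t
    generalize cos (al (vv m r y)) = c at hcne
    have hv : ((m : ℝ) + 1) * hI m r * vd m r y = (m : ℝ) * r y ^ (m - 1) * (r y - y * rd r y) := by
      unfold vd
      field_simp
    have hcast : ((m + 1 : ℕ) : ℝ) = (m : ℝ) + 1 := by push_cast; ring
    rw [hcast]
    have hpow : r y ^ m = r y ^ (m - 1) * r y := by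
      rw [← pow_succ]
      congr 1
      omega
    have hsimp : ((m : ℝ) + 1) * hI m r / cZ m * ((t * c) ^ 2 * c ^ (m - 3) *
        (cZ m / c ^ (m - 1) * vd m r y)) = t ^ 2 * (((m : ℝ) + 1) * hI m r * vd m r y) := by
      obtain ⟨k, rfl⟩ : ∃ k, m = k + 3 := ⟨m - 3, by omega⟩
      simp only [show k + 3 - 1 = k + 2 by omega, show k + 3 - 3 = k by omega]
      field_simp
      ring
    rw [hsimp, hv, hpow]
    push_cast
    ring
  · have e : (fun y => (((m + 1 : ℕ) : ℝ) * tan (al (vv m r y)) ^ 2 +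
        2 * y * tan (al (vv m r y)) *
          (cZ m / cos (al (vv m r y)) ^ (m + 1) * vd m r y)) * r y ^ m) = fun y =>
        ((m + 1 : ℕ) : ℝ) * tan (al (vv m r y)) ^ 2 * r y ^ m +
        (2 * y * tan (al (vv m r y)) * (cZ m / cos (al (vv m r y)) ^ (m + 1)) * r y ^ m) *
          vd m r y := by
      funext y
      ring
    rw [e]
    refine IntervalIntegrable.add ?_ (ii_mul_vd hr h0 h1 ?_)
    · apply ContinuousOn.intervalIntegrable
      rw [uIcc_of_le h0]
      exact (continuousOn_const.mul (htc.pow 2)).mul (hrc.pow m)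
    · refine (((continuousOn_const.mul continuousOn_id).mul htc).mul ?_).mul (hrc.pow m)
      exact continuousOn_const.div (hcc.pow _) fun y hy =>
        (pow_pos (aa_cos_pos hr ha (by omega) (hsub hy)) _).ne'

/-- interior part of the tangent inequality -/
theorem int_young (hm : 3 ≤ m) {y1 : ℝ} (h0 : 0 ≤ y1) (h1 : y1 < 1) {lam : ℝ} (hl : 0 < lam) :
    (1 + 1 / (m : ℝ)) / lam * (1 / cZ m * ∫ β in (0 : ℝ)..(al (vv m r y1)), cos β ^ (m - 2)) -
      1 / (m : ℝ) / lam ^ (m + 1) / cZ m * (∫ y in (0 : ℝ)..y1,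
        (cZ m / cos (al (vv m r y)) ^ (m + 1) * vd m r y) * r y ^ m) ≤
      ∫ y in (0 : ℝ)..y1, 1 / r y * vd m r y := by
  have hsub : Icc 0 y1 ⊆ Ico (0 : ℝ) 1 := fun y hy => ⟨hy.1, hy.2.trans_lt h1⟩
  have hrc := prof_contOn hr h1
  have hZ := cZ_pos m
  have hcc : ContinuousOn (fun y => cos (al (vv m r y))) (Icc 0 y1) :=
    continuous_cos.comp_continuousOn ((aa_cont hr ha (by omega)).mono hsub)
  have i1 : IntervalIntegrable (fun y => 1 / cos (al (vv m r y)) * vd m r y) volume 0 y1 :=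
    ii_mul_vd hr h0 h1 (continuousOn_const.div hcc fun y hy =>
      (aa_cos_pos hr ha (by omega) (hsub hy)).ne')
  have i2 : IntervalIntegrable (fun y => (cZ m / cos (al (vv m r y)) ^ (m + 1) * vd m r y) *
      r y ^ m) volume 0 y1 := by
    have := ii_mul_vd (m := m) hr h0 h1 (c := fun y => cZ m / cos (al (vv m r y)) ^ (m + 1) *
      r y ^ m) ((continuousOn_const.div (hcc.pow _) fun y hy =>
        (pow_pos (aa_cos_pos hr ha (by omega) (hsub hy)) _).ne').mul (hrc.pow m))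
    refine this.congr fun y _ => ?_
    ring
  have i3 : IntervalIntegrable (fun y => 1 / r y * vd m r y) volume 0 y1 :=
    ii_mul_vd hr h0 h1 (continuousOn_const.div hrc fun y hy => (prof_pos' hr (hsub hy)).ne')
  rw [← int_cos hr ha (by omega) h0 h1, ← intervalIntegral.integral_const_mul,
    ← intervalIntegral.integral_const_mul, ← intervalIntegral.integral_sub (i1.const_mul _)
    (i2.const_mul _)]
  refine intervalIntegral.integral_mono_on h0 ((i1.const_mul _).sub (i2.const_mul _)) i3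
    fun y hy => ?_
  have hy1 := hsub hy
  have hv := vd_nonneg (m := m) hr hy1
  have hc := aa_cos_pos hr ha (by omega : 1 ≤ m) hy1
  have hp := prof_pos' hr hy1
  have hy2 := young_pt hm hp (mul_pos hl hc)
  have h3 := mul_le_mul_of_nonneg_right hy2 hv
  refine le_trans (le_of_eq ?_) h3
  rw [mul_pow]
  field_simp

end Vale.Agent.P237.Alm
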