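import Vale.Agent.P237.Alm.Tail

/-!
# P237, almost Petty: passage to the limit
-/

open MeasureTheory Metric Set Module Filter Real
open scoped Topology

namespace Vale.Agent.P237.Alm

open AllN

theorem rpow_alg {m : ℕ} (hm : 1 ≤ m) {X Z lam a : ℝ} (hX : 0 < X) (hZ : 0 < Z) (hl : 0 < lam)
    (ha : 0 ≤ a) : (X / (lam ^ m * Z)) ^ (-(1 / (m : ℝ))) * (a * Z) ^ (1 - 1 / (m : ℝ)) =
      lam * Z * (X ^ (-(1 / (m : ℝ))) * a ^ (1 - 1 / (m : ℝ))) := by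
  have hm0 : m ≠ 0 := by omega
  have e1 : (lam ^ m) ^ (1 / (m : ℝ)) = lam := by
    rw [one_div]
    exact Real.pow_rpow_inv_natCast hl.le hm0
  have e2 : Z ^ (1 / (m : ℝ)) * Z ^ (1 - 1 / (m : ℝ)) = Z := by
    rw [← Real.rpow_add hZ, add_sub_cancel, Real.rpow_one]
  rw [Real.div_rpow hX.le (by positivity), Real.mul_rpow ha hZ.le,
    Real.rpow_neg (by positivity : 0 ≤ lam ^ m * Z), div_inv_eq_mul,
    Real.mul_rpow (by positivity) hZ.le, e1]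
  calc X ^ (-(1 / (m : ℝ))) * (lam * Z ^ (1 / (m : ℝ))) *
        (a ^ (1 - 1 / (m : ℝ)) * Z ^ (1 - 1 / (m : ℝ)))
      = lam * (Z ^ (1 / (m : ℝ)) * Z ^ (1 - 1 / (m : ℝ))) *
        (X ^ (-(1 / (m : ℝ))) * a ^ (1 - 1 / (m : ℝ))) := by ring
    _ = _ := by rw [e2]

theorem rpow_end {m : ℕ} (hm : 2 ≤ m) {X x : ℝ} (hX : 0 < X) (hx : 0 ≤ x) :
    X ^ (-(1 / (m : ℝ))) * (x ^ m / X) ^ (1 - 1 / (m : ℝ)) = x ^ (m - 1) / X := by
  have hm0 : (m : ℝ) ≠ 0 := by positivity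
  have e1 : (x ^ m) ^ (1 - 1 / (m : ℝ)) = x ^ (m - 1) := by
    rw [← Real.rpow_natCast x m, ← Real.rpow_mul hx, ← Real.rpow_natCast x (m - 1)]
    congr 1
    rw [Nat.cast_sub (by omega)]
    field_simp
    simp
  rw [Real.div_rpow (by (clear * - hx; positivity)) hX.le, e1, Real.rpow_sub hX, Real.rpow_one,
    Real.rpow_neg hX.le]
  have : 0 < X ^ (1 / (m : ℝ)) := Real.rpow_pos_of_pos hX _
  field_simp

variable {m : ℕ} {r : ℝ → ℝ} (hr : IsProf r) {al : ℝ → ℝ} (ha : IsAngle m al)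

include hr ha

/-- The inequality before the limit. -/
theorem pre_limit (hm : 3 ≤ m) (hF : Fish (m + 1) (fun y => r y ^ m)) {lam : ℝ} (hl : 0 < lam)
    {y1 : ℝ} (h0 : 0 < y1) (h1 : y1 < 1) {r1 : ℝ} (hr1 : 0 ≤ r1)
    (hle : ∀ y ∈ Ico (0 : ℝ) 1, r1 ≤ r y) :
    (1 + 1 / (m : ℝ)) / lam * (1 / cZ m * ∫ β in (0 : ℝ)..(π / 2), cos β ^ (m - 2)) -
      1 / (m : ℝ) / lam ^ (m + 1) / cZ m * (hI m r * √(((m : ℝ) + 1) / ((m : ℝ) - 2) *
        ((1 + ((m : ℝ) + 1) * (1 - y1)) / y1)) +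
        √((((m : ℝ) + 1) * hI m r * (1 - vv m r y1) - r1 ^ m) * (((m : ℝ) + 1) * hI m r) /
          ((m : ℝ) - 2))) ≤
      (m : ℝ) / (((m : ℝ) + 1) * hI m r) * ((m : ℝ) / ((m : ℝ) - 1) *
        (∫ y in (0 : ℝ)..y1, r y ^ (m - 1)) - y1 * r y1 ^ (m - 1) / ((m : ℝ) - 1)) +
      (m : ℝ) / ((m : ℝ) - 1) * ((((m : ℝ) + 1) * hI m r) ^ (-(1 / (m : ℝ))) *
        (1 - vv m r y1) ^ (1 - 1 / (m : ℝ))) := by
  have hm1 : 1 ≤ m := by omega
  have hm3 : (3 : ℝ) ≤ m := by exact_mod_cast hm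
  have hIp := hI_pos (m := m) hr
  have hZ := cZ_pos m
  have hap := one_sub_pos (m := m) hr hm1 h0.le h1
  have hal := aa_mem hr ha hm1 (y := y1) ⟨h0.le, h1⟩
  have hP := tan_le_PP hr ha hm h0.le h1
  have ht0 : 0 ≤ tan (al (vv m r y1)) := tan_nonneg_of_nonneg_of_le_pi_div_two hal.1 hal.2.le
  have hcut := cut_bound hr ha hm hF h0 h1 hr1 hle
  have hy := int_young hr ha hm h0.le h1 hl
  rw [int_inv hr (by omega) h0.le h1] at hy
  set X : ℝ := ((m : ℝ) + 1) * hI m r with hX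
  have hXp : 0 < X := by (clear * - hm hIp; positivity)
  have hνp : 0 < X / (lam ^ m * cZ m) := by positivity
  have hty := tail_young hm hνp hal.1 hal.2
  rw [tail_cos hr ha hm1 h0.le h1, rpow_alg hm1 hXp hZ hl hap.le] at hty
  set A := ∫ y in (0 : ℝ)..y1, (cZ m / cos (al (vv m r y)) ^ (m + 1) * vd m r y) * r y ^ m
    with hA
  have hPdef : PP m r al y1 = (cos (al (vv m r y1)) ^ (m - 1) / ((m : ℝ) - 1)) /
    ((1 - vv m r y1) * cZ m) := rfl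
  have hTP : cos (al (vv m r y1)) ^ (m - 1) / ((m : ℝ) - 1) =
      PP m r al y1 * ((1 - vv m r y1) * cZ m) := by
    rw [hPdef]
    (clear * - hap hZ; field_simp)
  rw [hTP] at hty
  have hPS : PP m r al y1 ^ 2 * ((1 - vv m r y1) * cZ m) ≤ _ := PP_sq_le hr ha hm h0.le h1
  have hS12 := S_add hm (al (vv m r y1))
  have hS1n := S_nn hr ha hm h0.le h1
  set P := PP m r al y1 with hPP
  set t1 := tan (al (vv m r y1)) with ht1
  set a := 1 - vv m r y1 with hadef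
  set C1 := ∫ β in (0 : ℝ)..(al (vv m r y1)), cos β ^ (m - 2) with hC1
  set C2 := ∫ β in (al (vv m r y1))..(π / 2), cos β ^ (m - 2) with hC2
  have hC : (∫ β in (0 : ℝ)..(π / 2), cos β ^ (m - 2)) = C1 + C2 :=
    (intervalIntegral.integral_add_adjacent_intervals
      (Continuous.intervalIntegrable (by fun_prop) _ _)
      (Continuous.intervalIntegrable (by fun_prop) _ _)).symm
  rw [hC]
  -- the quantity `w`
  set w := X * a - r1 ^ m with hw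
  have hone := one_sub_vv (m := m) hr (y := y1) ⟨h0.le, h1.le⟩
  rw [← hX, ← hadef] at hone
  have hr1m : 0 ≤ r1 ^ m := pow_nonneg hr1 m
  have hw0 : 0 ≤ w := by
    have hge : (1 - y1) * r1 ^ m ≤ ∫ y in y1..1, r y ^ m := by
      have h2 : ∫ _ in y1..1, r1 ^ m = (1 - y1) * r1 ^ m := by simp
      rw [← h2]
      refine intervalIntegral.integral_mono_on_of_le_Ioo h1.le (by simp)
        (prof_pow_ii hr m ⟨h0.le, h1.le⟩ ⟨zero_le_one, le_rfl⟩) fun s hs => ?_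
      exact pow_le_pow_left₀ hr1 (hle s ⟨h0.le.trans hs.1.le, hs.2⟩) m
    have hge2 : y1 * r1 ^ m ≤ y1 * r y1 ^ m :=
      mul_le_mul_of_nonneg_left (pow_le_pow_left₀ hr1 (hle y1 ⟨h0.le, h1⟩) m) h0.le
    have hge3 : ((m : ℝ) + 1) * ((1 - y1) * r1 ^ m) ≤ ((m : ℝ) + 1) * ∫ y in y1..1, r y ^ m :=
      mul_le_mul_of_nonneg_left hge (by positivity)
    have hge4 : 0 ≤ (1 - y1) * r1 ^ m := mul_nonneg (by linarith only [h1]) hr1m
    rw [hw, hone]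
    nlinarith only [hge2, hge3, hge4]
  have hwle : w ≤ X * a := by rw [hw]; linarith only [hr1m]
  have hP0 : 0 ≤ P := ht0.trans hP
  have hP2 : P ^ 2 * a ≤ 1 / ((m : ℝ) - 2) := by
    have h2 : P ^ 2 * (a * cZ m) ≤ 1 / ((m : ℝ) - 2) * cZ m := by linarith only [hS12, hS1n, hPS]
    have h3 : P ^ 2 * a * cZ m ≤ 1 / ((m : ℝ) - 2) * cZ m := by linarith only [hS12, hS1n, hPS]
    exact le_of_mul_le_mul_right h3 hZ
  have hwP : w * P ≤ √(w * X / ((m : ℝ) - 2)) := by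
    apply Real.le_sqrt_of_sq_le
    have h2 : (w * P) ^ 2 = w * (w * P ^ 2) := by ring
    have h3 : w * P ^ 2 ≤ X * a * P ^ 2 := mul_le_mul_of_nonneg_right hwle (sq_nonneg P)
    have h4 : X * a * P ^ 2 ≤ X * (1 / ((m : ℝ) - 2)) := by
      have := mul_le_mul_of_nonneg_left hP2 hXp.le
      linarith only [this]
    have h5 := mul_le_mul_of_nonneg_left (h3.trans h4) hw0
    rw [h2]
    refine h5.trans (le_of_eq ?_)
    ring
  have hkey : A + X * a * (P - t1) ≤ hI m r * √(((m : ℝ) + 1) / ((m : ℝ) - 2) *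
        ((1 + ((m : ℝ) + 1) * (1 - y1)) / y1)) + √(w * X / ((m : ℝ) - 2)) := by
    have h2 : A + X * a * (P - t1) = A + (P - t1) * r1 ^ m + w * (P - t1) := by
      rw [hw]
      ring
    have h3 : w * (P - t1) ≤ w * P := mul_le_mul_of_nonneg_left (by linarith only [ht0]) hw0
    linarith only [hcut, hwP, h3]
  have hcoef : 0 ≤ 1 / (m : ℝ) / lam ^ (m + 1) / cZ m := by positivity
  have hk2 := mul_le_mul_of_nonneg_left hkey hcoef
  have hty2 := mul_le_mul_of_nonneg_left hty (by positivity : 0 ≤ 1 / (lam * cZ m))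
  have f1 : 1 / (lam * cZ m) * ((1 + 1 / (m : ℝ)) * C2 -
      X / (lam ^ m * cZ m) / m * (P * (a * cZ m) - a * cZ m * t1)) =
      (1 + 1 / (m : ℝ)) / lam * (1 / cZ m * C2) -
        1 / (m : ℝ) / lam ^ (m + 1) / cZ m * (X * a * (P - t1)) := by
    rw [pow_succ]
    (clear * - hm hl hZ; field_simp)
  have f2 : 1 / (lam * cZ m) * ((m : ℝ) / ((m : ℝ) - 1) *
      (lam * cZ m * (X ^ (-(1 / (m : ℝ))) * a ^ (1 - 1 / (m : ℝ))))) =
      (m : ℝ) / ((m : ℝ) - 1) * (X ^ (-(1 / (m : ℝ))) * a ^ (1 - 1 / (m : ℝ))) := by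
    (clear * - hm hl hZ hap hXp; field_simp)
  rw [f1, f2] at hty2
  have f3 : (1 + 1 / (m : ℝ)) / lam * (1 / cZ m * (C1 + C2)) =
    (1 + 1 / (m : ℝ)) / lam * (1 / cZ m * C1) + (1 + 1 / (m : ℝ)) / lam * (1 / cZ m * C2) := by
    ring
  rw [f3]
  linarith only [hy, hk2, hty2]

/-- The inequality after the limit. -/
theorem limit_ineq (hm : 3 ≤ m) (hF : Fish (m + 1) (fun y => r y ^ m)) {lam : ℝ} (hl : 0 < lam) :
    (1 + 1 / (m : ℝ)) / lam * (1 / cZ m * ∫ β in (0 : ℝ)..(π / 2), cos β ^ (m - 2)) -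
      1 / (m : ℝ) / lam ^ (m + 1) / cZ m * (hI m r * √(((m : ℝ) + 1) / ((m : ℝ) - 2))) ≤
      (m : ℝ) ^ 2 / (((m : ℝ) - 1) * (((m : ℝ) + 1) * hI m r)) *
        ∫ y in (0 : ℝ)..1, r y ^ (m - 1) := by
  obtain ⟨r1, hr1, hle, htr⟩ := exists_limit hr
  have hm3 : (3 : ℝ) ≤ m := by exact_mod_cast hm
  have hIp := hI_pos (m := m) hr
  have hZ := cZ_pos m
  have hle2 : 𝓝[<] (1 : ℝ) ≤ 𝓝[Icc 0 1] 1 := by
    rw [← nhdsWithin_Ioo_eq_nhdsLT (zero_lt_one (α := ℝ))]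
    exact nhdsWithin_mono _ Ioo_subset_Icc_self
  have ty : Tendsto (fun y : ℝ => y) (𝓝[<] 1) (𝓝 1) := tendsto_id.mono_left nhdsWithin_le_nhds
  have tI : ∀ k : ℕ, Tendsto (fun y => ∫ s in (0 : ℝ)..y, r s ^ k) (𝓝[<] 1)
      (𝓝 (∫ s in (0 : ℝ)..1, r s ^ k)) := fun k =>
    (RR_cont (m := k) hr 1 ⟨zero_le_one, le_rfl⟩).mono_left hle2
  set X : ℝ := ((m : ℝ) + 1) * hI m r with hX
  have hXp : 0 < X := by positivity
  have ta : Tendsto (fun y => 1 - vv m r y) (𝓝[<] 1) (𝓝 (r1 ^ m / X)) := by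
    have h1 : Tendsto (vv m r) (𝓝[<] 1) (𝓝 ((((m : ℝ) + 1) * (∫ s in (0 : ℝ)..1, r s ^ m) -
        1 * r1 ^ m) / (((m : ℝ) + 1) * hI m r))) :=
      ((((tI m).const_mul ((m : ℝ) + 1)).sub (ty.mul (htr.pow m))).div_const _)
    have h2 := h1.const_sub 1
    have e : 1 - (((m : ℝ) + 1) * (∫ s in (0 : ℝ)..1, r s ^ m) - 1 * r1 ^ m) /
        (((m : ℝ) + 1) * hI m r) = r1 ^ m / X := by
      have e2 : (∫ s in (0 : ℝ)..1, r s ^ m) = hI m r := rfl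
      rw [e2, ← hX]
      field_simp
      ring
    rwa [e] at h2
  have tw : Tendsto (fun y => (X * (1 - vv m r y) - r1 ^ m) * X / ((m : ℝ) - 2)) (𝓝[<] 1)
      (𝓝 0) := by
    have h1 := (((ta.const_mul X).sub_const (r1 ^ m)).mul_const X).div_const ((m : ℝ) - 2)
    have e : (X * (r1 ^ m / X) - r1 ^ m) * X / ((m : ℝ) - 2) = 0 := by
      rw [mul_div_cancel₀ _ hXp.ne', sub_self, zero_mul, zero_div]
    rwa [e] at h1
  have tκ : Tendsto (fun y : ℝ => ((m : ℝ) + 1) / ((m : ℝ) - 2) *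
        ((1 + ((m : ℝ) + 1) * (1 - y)) / y)) (𝓝[<] 1) (𝓝 (((m : ℝ) + 1) / ((m : ℝ) - 2))) := by
    have h1 := ((((ty.const_sub 1).const_mul ((m : ℝ) + 1)).const_add 1).div ty
      one_ne_zero).const_mul (((m : ℝ) + 1) / ((m : ℝ) - 2))
    have e : ((m : ℝ) + 1) / ((m : ℝ) - 2) * ((1 + ((m : ℝ) + 1) * (1 - 1)) / 1) =
        ((m : ℝ) + 1) / ((m : ℝ) - 2) := by simp
    rwa [e] at h1
  have tL := (((tκ.sqrt).const_mul (hI m r)).add tw.sqrt).const_mul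
    (1 / (m : ℝ) / lam ^ (m + 1) / cZ m)
  rw [Real.sqrt_zero, add_zero] at tL
  have tL2 := tL.const_sub ((1 + 1 / (m : ℝ)) / lam * (1 / cZ m *
    ∫ β in (0 : ℝ)..(π / 2), cos β ^ (m - 2)))
  have hexp : 0 ≤ 1 - 1 / (m : ℝ) := by
    have : 1 / (m : ℝ) ≤ 1 := by rw [div_le_one (by positivity)]; linarith only [hm3]
    linarith only [this]
  have tR1 := ((((tI (m - 1)).const_mul ((m : ℝ) / ((m : ℝ) - 1))).sub
    ((ty.mul (htr.pow (m - 1))).div_const ((m : ℝ) - 1)))).const_mul ((m : ℝ) / X)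
  have tR2 := ((ta.rpow_const (p := 1 - 1 / (m : ℝ)) (Or.inr hexp)).const_mul
    (X ^ (-(1 / (m : ℝ))))).const_mul ((m : ℝ) / ((m : ℝ) - 1))
  rw [rpow_end (by omega) hXp hr1] at tR2
  have tR := tR1.add tR2
  have hfin := le_of_tendsto_of_tendsto tL2 tR ?_
  · refine hfin.trans (le_of_eq ?_)
    have : (m : ℝ) - 1 ≠ 0 := by linarith only [hm3]
    field_simp
    ring
  · filter_upwards [Ioo_mem_nhdsLT (zero_lt_one (α := ℝ))] with y hy
    exact pre_limit hr ha hm hF hl hy.1 hy.2 hr1 hle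

end Vale.Agent.P237.Alm
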