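import Vale.Agent.P237.Alm.Lim

/-!
# P237, almost Petty: the one dimensional inequality
-/

open MeasureTheory Metric Set Module Filter Real
open scoped Topology

namespace Vale.Agent.P237.Alm

open AllN

theorem aInt_rc (k : ℕ) : aInt (k + 2) = ((k : ℝ) + 2) / ((k : ℝ) + 3) * aInt k := by
  rw [aInt_eq, aInt_eq, integral_cos_pow (n := k + 1)]
  simp only [cos_pi_div_two, sin_zero, mul_zero, sub_zero]
  rw [zero_pow (by omega)]
  push_cast
  have : (k : ℝ) + 3 ≠ 0 := by positivity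
  have h2 : (k : ℝ) + 1 + 2 ≠ 0 := by positivity
  field_simp
  ring

theorem one_d_alm {m : ℕ} (hm : 3 ≤ m) {r : ℝ → ℝ} (hr : IsProf r)
    (hF : Fish (m + 1) (fun y => r y ^ m)) :
    del m * (aInt (m - 1) ^ m / aInt m ^ (m - 1)) * (∫ y in (-1 : ℝ)..1, r y ^ m) ^ (m - 1) ≤
      (∫ y in (-1 : ℝ)..1, r y ^ (m - 1)) ^ m := by
  have hm3 : (3 : ℝ) ≤ m := by exact_mod_cast hm
  obtain ⟨al, hal1, hal2, hal3, hal4, hal5, hal6⟩ := exists_angle hm
  have ha : IsAngle m al := ⟨hal1, hal2, hal3, hal4, hal5, hal6⟩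
  have hlim := fun {lam : ℝ} (hl : 0 < lam) => limit_ineq hr ha hm hF hl
  have hIp := hI_pos (m := m) hr
  have hZ := cZ_pos m
  have e1 : (∫ y in (-1 : ℝ)..1, r y ^ m) = 2 * hI m r :=
    integral_even_eq (fun y => by simp only [hr.even])
      (prof_pow_ii hr m ⟨le_rfl, zero_le_one⟩ ⟨zero_le_one, le_rfl⟩)
  have e2 : (∫ y in (-1 : ℝ)..1, r y ^ (m - 1)) = 2 * ∫ y in (0 : ℝ)..1, r y ^ (m - 1) :=
    integral_even_eq (fun y => by simp only [hr.even])
      (prof_pow_ii hr (m - 1) ⟨le_rfl, zero_le_one⟩ ⟨zero_le_one, le_rfl⟩)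
  rw [e1, e2]
  have A3p := aInt_pos (m - 3)
  have A2p := aInt_pos (m - 2)
  have c1 : (∫ β in (0 : ℝ)..(π / 2), cos β ^ (m - 2)) = aInt (m - 3) / 2 := by
    rw [aInt_eq, show m - 3 + 1 = m - 2 by omega]
    ring
  have c2 : cZ m = aInt (m - 2) / 2 := by
    rw [aInt_eq, show m - 2 + 1 = m - 1 by omega]
    unfold cZ
    ring
  have c3 : aInt (m - 1) = ((m : ℝ) - 1) / m * aInt (m - 3) := by
    have := aInt_rc (m - 3)
    rw [show m - 3 + 2 = m - 1 by omega, Nat.cast_sub hm] at this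
    rw [this]
    congr 1
    push_cast
    ring
  have c4 : aInt m = (m : ℝ) / ((m : ℝ) + 1) * aInt (m - 2) := by
    have := aInt_rc (m - 2)
    rw [show m - 2 + 2 = m by omega, Nat.cast_sub (by omega)] at this
    rw [this]
    congr 1
    push_cast
    ring
  set I := hI m r with hIdef
  set J := ∫ y in (0 : ℝ)..1, r y ^ (m - 1) with hJ
  set A3 := aInt (m - 3) with hA3
  set A2 := aInt (m - 2) with hA2
  set q := √(((m : ℝ) + 1) / ((m : ℝ) - 2)) with hq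
  have hm2 : 0 < (m : ℝ) - 2 := by linarith
  have hm1 : 0 < (m : ℝ) - 1 := by linarith
  have hqp : 0 < q := Real.sqrt_pos.2 (by positivity)
  -- the choice of `lam`
  set L : ℝ := I * q / (A3 / 2) with hL
  have hLp : 0 < L := by positivity
  set lam : ℝ := L ^ (1 / (m : ℝ)) with hlam
  have hlp : 0 < lam := Real.rpow_pos_of_pos hLp _
  have hlm : lam ^ m = L := by
    rw [hlam, one_div, Real.rpow_inv_natCast_pow hLp.le (by omega)]
  have h1 := hlim hlp
  rw [c1, c2] at h1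
  have h2 : (1 + 1 / (m : ℝ)) / lam * (1 / (A2 / 2) * (A3 / 2)) -
      1 / (m : ℝ) / lam ^ (m + 1) / (A2 / 2) * (I * q) = A3 / A2 / lam := by
    rw [pow_succ, hlm, hL]
    field_simp
    ring
  rw [h2] at h1
  -- lower bound for `J`
  set U : ℝ := ((m : ℝ) - 1) * ((m : ℝ) + 1) / (m : ℝ) ^ 2 * (A3 / A2) with hU
  have hUp : 0 < U := by positivity
  have h3 : U * I / lam ≤ J := by
    have h4 := mul_le_mul_of_nonneg_left h1
      (by positivity : 0 ≤ ((m : ℝ) - 1) * (((m : ℝ) + 1) * I) / (m : ℝ) ^ 2)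
    have e3 : ((m : ℝ) - 1) * (((m : ℝ) + 1) * I) / (m : ℝ) ^ 2 * (A3 / A2 / lam) =
        U * I / lam := by
      rw [hU]
      field_simp
    have e4 : ((m : ℝ) - 1) * (((m : ℝ) + 1) * I) / (m : ℝ) ^ 2 *
        ((m : ℝ) ^ 2 / (((m : ℝ) - 1) * (((m : ℝ) + 1) * I)) * J) = J := by
      field_simp
    rwa [e3, e4] at h4
  have h5 : (2 * (U * I / lam)) ^ m ≤ (2 * J) ^ m :=
    pow_le_pow_left₀ (by positivity) (by linarith) m
  refine le_trans (le_of_eq ?_) h5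
  have h6 : (2 * (U * I / lam)) ^ m = U ^ m * (2 * I) ^ m / L := by
    rw [← hlm, show 2 * (U * I / lam) = U * (2 * I) / lam by ring, div_pow, mul_pow]
  rw [h6, hL, c3, c4]
  have hs : √(((m : ℝ) + 1) * ((m : ℝ) - 2)) * q = (m : ℝ) + 1 := by
    rw [hq, ← Real.sqrt_mul (by positivity)]
    have : ((m : ℝ) + 1) * ((m : ℝ) - 2) * (((m : ℝ) + 1) / ((m : ℝ) - 2)) =
        ((m : ℝ) + 1) ^ 2 := by field_simp
    rw [this, Real.sqrt_sq (by positivity)]
  have hdel : del m = ((m : ℝ) + 1) / q / m * (A3 / A2) := by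
    unfold del
    rw [← hA3, ← hA2]
    congr 2
    rw [eq_div_iff hqp.ne', hs]
  rw [hdel, hU]
  obtain ⟨k, hk⟩ : ∃ k, m = k + 1 := ⟨m - 1, by omega⟩
  have hk1 : m - 1 = k := by omega
  rw [hk1]
  have hpm : ∀ x : ℝ, x ^ m = x ^ k * x := fun x => by rw [hk, pow_succ]
  simp only [hpm]
  have hmne : (m : ℝ) ≠ 0 := by positivity
  generalize (m : ℝ) = M at *
  have hM1 : M - 1 ≠ 0 := hm1.ne'
  have hM2 : M + 1 ≠ 0 := by linarith
  have hA2' : A2 ≠ 0 := A2p.ne'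
  have hA3' : A3 ≠ 0 := A3p.ne'
  have hq' : q ≠ 0 := hqp.ne'
  have hI' : I ≠ 0 := hIp.ne'
  simp only [mul_pow, div_pow]
  field_simp
  rw [← pow_mul, ← pow_mul, mul_comm 2 k]

end Vale.Agent.P237.Alm
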