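import Vale.Agent.P237.Alm.MainA0
import Vale.Agent.P237.Alm.OneJ

/-!
# P237, almost Petty in all dimensions: the result
-/

open MeasureTheory Metric Set Module

namespace Vale.Agent.P237.Alm

open AllN

theorem oneAlm {m : ℕ} (hm : 3 ≤ m) : OneAlm m := fun _ hr hF => one_d_alm hm hr hF

theorem step {m : ℕ} (hm : 3 ≤ m) {c : ℝ} (hc : 0 ≤ c) (h : PettyC m c) :
    PettyC (m + 1) (del m * c) :=
  step_of hm (oneAlm hm) hc h

/-- **Petty's inequality with the sharper dimension dependent constant** -/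
theorem pettyC_cst {n : ℕ} (hn : 3 ≤ n) : PettyC n (cst n) :=
  pettyC_cst_of (fun _ hm => oneAlm hm) hn

/-- **Petty's inequality up to the factor `2/√(3π)` in every dimension.** -/
theorem pettyC_all {n : ℕ} (hn : 3 ≤ n) : PettyC n (2 / Real.sqrt (3 * Real.pi)) :=
  pettyC_all_of (fun _ hm => oneAlm hm) hn

end Vale.Agent.P237.Alm
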