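import Vale.Agent.P237.Alm.Fisher

/-!
# P237, almost Petty in all dimensions: assembly
-/

open MeasureTheory Metric Set Module
open scoped Pointwise

namespace Vale.Agent.P237.Alm

open AllN

/-- The one-dimensional inequality for the step from dimension `m` to `m + 1` (proved in `OneJ`). -/
def OneAlm (m : ℕ) : Prop := ∀ r : ℝ → ℝ, IsProf r → Fish (m + 1) (fun y => r y ^ m) →
  del m * (aInt (m - 1) ^ m / aInt m ^ (m - 1)) * (∫ y in (-1 : ℝ)..1, r y ^ m) ^ (m - 1) ≤
    (∫ y in (-1 : ℝ)..1, r y ^ (m - 1)) ^ m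

theorem RC_pos {m : ℕ} (hm : 2 ≤ m) : 0 < RC m := by
  rw [RC_eq hm]
  have h1 := kappa_pos (m - 1)
  have h2 := kappa_pos m
  (clear * - h1 h2; positivity)

theorem RC_three : RC 3 = 3 * Real.pi ^ 2 / 4 := by
  unfold RC
  have h2 : (2 - ((3 : ℕ) : ℤ)) = -1 := by norm_num
  rw [h2, Statement.kappa_three, zpow_neg_one]
  norm_num
  rw [Statement.kappa_two]
  have := Real.pi_pos
  (clear * -; field_simp)

section

variable {V : Type} [NormedAddCommGroup V] [InnerProductSpace ℝ V] [FiniteDimensional ℝ V]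
  [MeasurableSpace V] [BorelSpace V]

theorem del_nonneg (m : ℕ) : 0 ≤ del m := by
  unfold del
  have a1 := aInt_pos (m - 3)
  have a2 := aInt_pos (m - 2)
  positivity

/-- The bound for a symmetric body with `Π² K = r K`. -/
theorem ratio_ge_of_fixed {m : ℕ} (hm : 3 ≤ m) (h1d : OneAlm m) {c : ℝ} (hc : 0 ≤ c) (h : PettyC m c)
    (hd : finrank ℝ V = m + 1) {K : Set V} (hK : IsSymBody K) {r : ℝ} (hr : 0 < r)
    (hM : projBody (projBody K) = r • K) (hv : vol (projBody K) = r * vol K) :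
    del m * c * RC (m + 1) ≤ ratio K := by
  have : Nontrivial V := Module.nontrivial_of_finrank_pos (R := ℝ) (by omega)
  have : Fact (IsSymBody K) := ⟨hK⟩
  obtain ⟨u, hu, hF⟩ := exists_dir_fish K (by omega)
  rw [hd] at hF
  have hR := RC_pos (m := m) (by omega)
  have hF' : Fish (m + 1) (fun y => rprof K u m y ^ m) := by
    have e : (fun y => rprof K u m y ^ m) = fun t => vol (slice K u (supp K u * t)) := by
      funext t
      exact prof_pow (by omega) K u _
    rw [e]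
    exact hF
  have h1 := h1d _ (rprof_isProf (by omega) hd hK hu) hF'
  have h2 := ratio_ge_dir (m := m) (by omega) hd hK (R := c * RC m) (by (clear * - hc hR; positivity)) hu
    (h _ (finrank_perp_gen hd hu)) hr hM hv
  have a1 := aInt_pos (m - 1)
  have a2 := aInt_pos m
  have p1 := Main.vol_pos hK.toIsBody
  have hpos := supp_pos hK hu
  have hI2 : 0 < ∫ y in (-1 : ℝ)..1, rprof K u m y ^ m := by
    rw [vol_eq_rprof (m := m) (by omega) hK hu] at p1
    exact (mul_pos_iff_of_pos_left hpos).1 p1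
  rw [RC_succ (by omega)]
  set I1 := ∫ y in (-1 : ℝ)..1, rprof K u m y ^ (m - 1)
  set I2 := ∫ y in (-1 : ℝ)..1, rprof K u m y ^ m
  have key : del m * c * (RC m * (aInt (m - 1) ^ m / aInt m ^ (m - 1))) * I2 ^ (m - 1) ≤
      ratio K * I2 ^ (m - 1) := by
    calc del m * c * (RC m * (aInt (m - 1) ^ m / aInt m ^ (m - 1))) * I2 ^ (m - 1) =
        (c * RC m) * (del m * (aInt (m - 1) ^ m / aInt m ^ (m - 1)) * I2 ^ (m - 1)) := by ring
      _ ≤ (c * RC m) * I1 ^ m := mul_le_mul_of_nonneg_left h1 (by (clear * - hc hR; positivity))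
      _ ≤ ratio K * I2 ^ (m - 1) := h2
  exact le_of_mul_le_mul_right key (by (clear * - hI2; positivity))

theorem ratio_ge {m : ℕ} (hm : 3 ≤ m) (h1d : OneAlm m) {c : ℝ} (hc : 0 ≤ c) (h : PettyC m c)
    (hd : finrank ℝ V = m + 1) {K : Set V} (hK : IsBody K) :
    del m * c * RC (m + 1) ≤ ratio K := by
  have hd0 : 0 < finrank ℝ V := by omega
  obtain ⟨K₀, hK₀, hmin⟩ := exists_global_min (V := V) hd0
  obtain ⟨r, hr, hM, hv⟩ := Main.fixed_of_ratio_le hK₀ hd0
    (hmin _ (projBody_isSymBody hK₀.toIsBody))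
  calc del m * c * RC (m + 1) ≤ ratio K₀ := ratio_ge_of_fixed hm h1d hc h hd hK₀ hr hM hv
    _ ≤ ratio (projBody K) := hmin _ (projBody_isSymBody hK)
    _ ≤ ratio K := Main.ratio_projBody_le hK hd0

end

theorem step_of {m : ℕ} (hm : 3 ≤ m) (h1d : OneAlm m) {c : ℝ} (hc : 0 ≤ c) (h : PettyC m c) :
    PettyC (m + 1) (del m * c) := by
  intro W _ _ _ _ _ hd S hS
  have h1 := ratio_ge hm h1d hc h hd hS
  have p1 := Main.vol_pos hS
  unfold ratio at h1
  rw [hd, le_div_iff₀ (by positivity)] at h1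
  simpa only [add_tsub_cancel_right, ge_iff_le] using h1

theorem pettyC_three : PettyC 3 1 := by
  intro W _ _ _ _ _ hd S hS
  rw [RC_three, one_mul]
  exact Main.petty3 hd hS

/-! ### The integrals `aInt` -/

theorem aInt_zero : aInt 0 = 2 := by
  simp only [aInt, pow_zero, intervalIntegral.integral_const, sub_neg_eq_add, smul_eq_mul, mul_one]
  norm_num

theorem aInt_one : aInt 1 = Real.pi / 2 := by
  simp only [aInt, pow_one]
  exact integral_sqrt_one_sub_sq

theorem continuous_sq (k : ℕ) : Continuous fun y : ℝ => Real.sqrt (1 - y ^ 2) ^ k := by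
  fun_prop

theorem aInt_rec (k : ℕ) : ((k : ℝ) + 3) * aInt (k + 2) = ((k : ℝ) + 2) * aInt k := by
  have hder : ∀ x ∈ Ioo (-1 : ℝ) 1, HasDerivAt (fun y : ℝ => y * Real.sqrt (1 - y ^ 2) ^ (k + 2))
      (((k : ℝ) + 3) * Real.sqrt (1 - x ^ 2) ^ (k + 2) -
        ((k : ℝ) + 2) * Real.sqrt (1 - x ^ 2) ^ k) x := by
    intro x hx
    have hpos : 0 < 1 - x ^ 2 := by nlinarith only [hx.1, hx.2]
    have h1 : HasDerivAt (fun y : ℝ => 1 - y ^ 2) (-(2 * x)) x := by
      simpa only [Nat.cast_ofNat, Nat.add_one_sub_one, pow_one] using (hasDerivAt_pow 2 x).const_sub 1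
    have h2 := h1.sqrt hpos.ne'
    have h3 := (hasDerivAt_id x).mul (h2.pow (k + 2))
    refine h3.congr_deriv ?_
    have hs : Real.sqrt (1 - x ^ 2) ≠ 0 := (Real.sqrt_pos.2 hpos).ne'
    have hsq : Real.sqrt (1 - x ^ 2) ^ 2 = 1 - x ^ 2 := Real.sq_sqrt hpos.le
    set s := Real.sqrt (1 - x ^ 2)
    have hx2 : x ^ 2 = 1 - s ^ 2 := by linarith only [hsq]
    simp only [id, Pi.pow_apply, show k + 2 - 1 = k + 1 by omega]
    push_cast
    change 1 * s ^ (k + 2) + _ = _
    field_simp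
    rw [hx2]
    ring
  have h := intervalIntegral.integral_eq_sub_of_hasDerivAt_of_le (by norm_num : (-1 : ℝ) ≤ 1)
    (by fun_prop) hder (Continuous.intervalIntegrable (by fun_prop) _ _)
  rw [intervalIntegral.integral_sub, intervalIntegral.integral_const_mul,
    intervalIntegral.integral_const_mul] at h
  · simp only [aInt]
    norm_num at h ⊢
    linarith
  · exact Continuous.intervalIntegrable (by fun_prop) _ _
  · exact Continuous.intervalIntegrable (by fun_prop) _ _

theorem aInt_mul_succ (k : ℕ) : aInt (k + 1) * aInt k = 2 * Real.pi / ((k : ℝ) + 2) := by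
  induction k with
  | zero =>
    rw [aInt_one, aInt_zero]
    push_cast
    ring
  | succ k ih =>
    have h := aInt_rec k
    have h3 : ((k : ℝ) + 3) ≠ 0 := by positivity
    have h2 : ((k : ℝ) + 2) ≠ 0 := by (clear * -; positivity)
    rw [eq_div_iff h2] at ih
    rw [eq_div_iff (by push_cast; positivity)]
    push_cast
    calc aInt (k + 1 + 1) * aInt (k + 1) * ((k : ℝ) + 1 + 2) =
        ((k : ℝ) + 3) * aInt (k + 2) * aInt (k + 1) := by ring
      _ = ((k : ℝ) + 2) * aInt k * aInt (k + 1) := by rw [h]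
      _ = aInt (k + 1) * aInt k * ((k : ℝ) + 2) := by ring
      _ = _ := ih

theorem aInt_succ_le (k : ℕ) : aInt (k + 1) ≤ aInt k := by
  unfold aInt
  refine intervalIntegral.integral_mono_on (by norm_num)
    (Continuous.intervalIntegrable (by fun_prop) _ _)
    (Continuous.intervalIntegrable (by fun_prop) _ _) fun y _ => ?_
  exact pow_le_pow_of_le_one (Real.sqrt_nonneg _)
    (Real.sqrt_le_one.2 (by nlinarith only [])) (Nat.le_succ k)

theorem aInt_sq_le (k : ℕ) : aInt k ^ 2 ≤ 2 * Real.pi / ((k : ℝ) + 1) := by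
  rcases Nat.eq_zero_or_pos k with rfl | hk
  · rw [aInt_zero]
    have := Real.pi_gt_three
    push_cast
    linarith only [this]
  · obtain ⟨j, rfl⟩ : ∃ j, k = j + 1 := ⟨k - 1, by omega⟩
    have h := aInt_mul_succ j
    have h1 := aInt_succ_le j
    have p := aInt_pos (j + 1)
    calc aInt (j + 1) ^ 2 = aInt (j + 1) * aInt (j + 1) := sq _
      _ ≤ aInt (j + 1) * aInt j := mul_le_mul_of_nonneg_left h1 p.le
      _ = _ := by rw [h]; push_cast; ring

/-- The constant in dimension `m`. -/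
noncomputable def cst (m : ℕ) : ℝ :=
  Real.sqrt (8 * m / (3 * ((m : ℝ) - 1) * ((m : ℝ) - 2))) / aInt (m - 3)

theorem cst_nonneg (m : ℕ) : 0 ≤ cst m := by
  unfold cst
  have := aInt_pos (m - 3)
  positivity

theorem cst_three : cst 3 = 1 := by
  unfold cst
  rw [show 3 - 3 = 0 by omega, aInt_zero]
  have h : (8 * ((3 : ℕ) : ℝ) / (3 * (((3 : ℕ) : ℝ) - 1) * (((3 : ℕ) : ℝ) - 2))) = 2 ^ 2 := by
    push_cast; norm_num
  rw [h, Real.sqrt_sq (by norm_num)]
  norm_num

theorem del_mul_cst {m : ℕ} (hm : 3 ≤ m) : del m * cst m = cst (m + 1) := by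
  unfold del cst
  have hm' : (3 : ℝ) ≤ m := by exact_mod_cast hm
  have a1 := (aInt_pos (m - 3)).ne'
  have a2 := (aInt_pos (m - 2)).ne'
  rw [show m + 1 - 3 = m - 2 by omega]
  have e1 : Real.sqrt (((m : ℝ) + 1) * ((m : ℝ) - 2)) / m * (aInt (m - 3) / aInt (m - 2)) *
      (Real.sqrt (8 * m / (3 * ((m : ℝ) - 1) * ((m : ℝ) - 2))) / aInt (m - 3)) =
      (Real.sqrt (((m : ℝ) + 1) * ((m : ℝ) - 2)) *
        Real.sqrt (8 * m / (3 * ((m : ℝ) - 1) * ((m : ℝ) - 2))) / m) / aInt (m - 2) := by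
    field_simp
  rw [e1]
  congr 1
  have hm0 : (0 : ℝ) < m := by linarith only [hm']
  rw [← Real.sqrt_mul (by nlinarith only [hm']), div_eq_iff hm0.ne']
  have hpos : 0 < (3 * (((m + 1 : ℕ) : ℝ) - 1) * (((m + 1 : ℕ) : ℝ) - 2)) := by
    push_cast
    have : (0 : ℝ) < (m : ℝ) + 1 - 1 := by linarith only [hm']
    have : (0 : ℝ) < (m : ℝ) + 1 - 2 := by linarith only [hm']
    (clear a1 a2 e1 hm0; positivity)
  have h2 : ∀ t : ℝ, 0 ≤ t → Real.sqrt t * m = Real.sqrt (t * (m : ℝ) ^ 2) := fun t ht => by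
    rw [Real.sqrt_mul ht, Real.sqrt_sq hm0.le]
  rw [h2 _ (by (clear * - hm hpos; positivity))]
  congr 1
  have n1 : (m : ℝ) - 1 ≠ 0 := by intro h; linarith only [hm', h]
  have n2 : (m : ℝ) - 2 ≠ 0 := by intro h; linarith only [hm', h]
  push_cast
  rw [show (m : ℝ) + 1 - 1 = m by ring, show (m : ℝ) + 1 - 2 = m - 1 by ring]
  field_simp

theorem pettyC_cst_of (h1d : ∀ m : ℕ, 3 ≤ m → OneAlm m) {n : ℕ} (hn : 3 ≤ n) : PettyC n (cst n) := by
  induction n, hn using Nat.le_induction with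
  | base => rw [cst_three]; exact pettyC_three
  | succ m hm ih =>
    rw [← del_mul_cst hm]
    exact step_of hm (h1d m hm) (cst_nonneg m) ih

theorem le_cst {n : ℕ} (hn : 3 ≤ n) : 2 / Real.sqrt (3 * Real.pi) ≤ cst n := by
  have hn' : (3 : ℝ) ≤ n := by exact_mod_cast hn
  have hpi := Real.pi_pos
  unfold cst
  have a := aInt_pos (n - 3)
  have ha := aInt_sq_le (n - 3)
  rw [Nat.cast_sub hn] at ha
  push_cast at ha
  have p2 : (0 : ℝ) < (n : ℝ) - 2 := by linarith only [hn']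
  have p1 : (0 : ℝ) < (n : ℝ) - 1 := by linarith only [hn']
  rw [show (n : ℝ) - 3 + 1 = n - 2 by ring, le_div_iff₀ p2] at ha
  rw [le_div_iff₀ a]
  refine Real.le_sqrt_of_sq_le ?_
  rw [mul_pow, div_pow, Real.sq_sqrt (by positivity), div_mul_eq_mul_div,
    div_le_div_iff₀ (by positivity) (by positivity)]
  nlinarith only [hpi, ha, p1]

/-- Petty's inequality up to the factor `2/√(3π)` in every dimension, from the one-dimensional
inequalities. -/
theorem pettyC_all_of (h1d : ∀ m : ℕ, 3 ≤ m → OneAlm m) {n : ℕ} (hn : 3 ≤ n) : PettyC n (2 / Real.sqrt (3 * Real.pi)) := by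
  intro W _ _ _ _ _ hd S hS
  have h := pettyC_cst_of h1d hn W hd S hS
  have hR := RC_pos (m := n) (by omega)
  have hv := (Main.vol_pos hS).le
  refine le_trans ?_ h
  exact mul_le_mul_of_nonneg_right (mul_le_mul_of_nonneg_right (le_cst hn) hR.le) (by (clear h1d hn hd h hR; positivity))

end Vale.Agent.P237.Alm
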