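import Vale.Agent.P237.Alm.Cut

/-!
# P237, almost Petty: the bound for the cut-off test function
-/

open MeasureTheory Metric Set Module Filter Real
open scoped Topology

namespace Vale.Agent.P237.Alm

open AllN

/-- The slope of the ramp. -/
noncomputable def PP (m : ℕ) (r al : ℝ → ℝ) (y1 : ℝ) : ℝ :=
  (cos (al (vv m r y1)) ^ (m - 1) / ((m : ℝ) - 1)) / ((1 - vv m r y1) * cZ m)

variable {m : ℕ} {r : ℝ → ℝ} (hr : IsProf r) {al : ℝ → ℝ} (ha : IsAngle m al)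

include hr ha

theorem tail_cos (hm : 1 ≤ m) {y1 : ℝ} (h0 : 0 ≤ y1) (h1 : y1 < 1) :
    ∫ β in (al (vv m r y1))..(π / 2), cos β ^ (m - 1) = (1 - vv m r y1) * cZ m := by
  have e1 := ha.int _ (vv_mem hr hm (y := y1) ⟨h0, h1⟩)
  have e2 : (∫ β in (0 : ℝ)..(al (vv m r y1)), cos β ^ (m - 1)) +
      ∫ β in (al (vv m r y1))..(π / 2), cos β ^ (m - 1) = cZ m :=
    intervalIntegral.integral_add_adjacent_intervals
      (Continuous.intervalIntegrable (by fun_prop) _ _)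
      (Continuous.intervalIntegrable (by fun_prop) _ _)
  rw [e1] at e2
  linarith only [e2]

omit ha in
theorem one_sub_pos (hm : 1 ≤ m) {y1 : ℝ} (h0 : 0 ≤ y1) (h1 : y1 < 1) : 0 < 1 - vv m r y1 := by
  have := vv_lt_one hr hm (y := y1) ⟨h0, h1⟩
  linarith only [this]

theorem tan_le_PP (hm : 3 ≤ m) {y1 : ℝ} (h0 : 0 ≤ y1) (h1 : y1 < 1) :
    tan (al (vv m r y1)) ≤ PP m r al y1 := by
  have hal := aa_mem hr ha (by omega : 1 ≤ m) (y := y1) ⟨h0, h1⟩
  have hc := aa_cos_pos hr ha (by omega : 1 ≤ m) (y := y1) ⟨h0, h1⟩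
  have hZ := cZ_pos m
  have hap := one_sub_pos (m := m) hr (by omega) h0 h1
  unfold PP
  rw [le_div_iff₀ (by (clear * - hap hZ; positivity)), ← tail_cos hr ha (by omega) h0 h1,
    ← int_sin_mul hm, ← intervalIntegral.integral_const_mul]
  refine intervalIntegral.integral_mono_on hal.2.le
    (Continuous.intervalIntegrable (by fun_prop) _ _)
    (Continuous.intervalIntegrable (by fun_prop) _ _) fun β hβ => ?_
  set α := al (vv m r y1) with hα
  have hcβ : 0 ≤ cos β := cos_nonneg_of_mem_Icc ⟨by linarith only [hal.1, hβ.1, pi_pos], hβ.2⟩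
  have hs : 0 ≤ sin (β - α) := sin_nonneg_of_nonneg_of_le_pi (by linarith [hβ.1])
    (by linarith only [hβ.2, hal.1, pi_pos])
  have e1 : sin β - tan α * cos β = sin (β - α) / cos α := by
    rw [tan_eq_sin_div_cos, sin_sub]
    (clear * - hc; field_simp)
  have e2 : tan α * cos β ≤ sin β := by
    have := div_nonneg hs hc.le
    linarith only [e1, this]
  have e3 : cos β ^ (m - 1) = cos β * cos β ^ (m - 2) := by
    rw [← pow_succ']
    congr 1
    omega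
  rw [e3, ← mul_assoc]
  exact mul_le_mul_of_nonneg_right e2 (pow_nonneg hcβ _)

theorem PP_sq_le (hm : 3 ≤ m) {y1 : ℝ} (h0 : 0 ≤ y1) (h1 : y1 < 1) :
    PP m r al y1 ^ 2 * ((1 - vv m r y1) * cZ m) ≤
      ∫ β in (al (vv m r y1))..(π / 2), sin β ^ 2 * cos β ^ (m - 3) := by
  have hal := aa_mem hr ha (by omega : 1 ≤ m) (y := y1) ⟨h0, h1⟩
  have hZ := cZ_pos m
  have hap := one_sub_pos (m := m) hr (by omega) h0 h1
  have h := tail_cs hm hal.1 hal.2.le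
  rw [tail_cos hr ha (by omega) h0 h1] at h
  unfold PP
  rw [div_pow, div_mul_eq_mul_div, div_le_iff₀ (by positivity)]
  have h2 := mul_le_mul_of_nonneg_right h (by (clear * - hap hZ; positivity) : 0 ≤ (1 - vv m r y1) * cZ m)
  refine h2.trans (le_of_eq ?_)
  ring

omit hr ha in
theorem S_add (hm : 3 ≤ m) (α : ℝ) : (∫ β in (0 : ℝ)..α, sin β ^ 2 * cos β ^ (m - 3)) +
    (∫ β in α..(π / 2), sin β ^ 2 * cos β ^ (m - 3)) = 1 / ((m : ℝ) - 2) * cZ m := by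
  rw [intervalIntegral.integral_add_adjacent_intervals
      (Continuous.intervalIntegrable (by fun_prop) _ _)
      (Continuous.intervalIntegrable (by fun_prop) _ _), int_sin_sq hm]
  rfl

theorem S_nn (hm : 3 ≤ m) {y1 : ℝ} (h0 : 0 ≤ y1) (h1 : y1 < 1) :
    0 ≤ ∫ β in (0 : ℝ)..(al (vv m r y1)), sin β ^ 2 * cos β ^ (m - 3) := by
  have hal := aa_mem hr ha (by omega : 1 ≤ m) (y := y1) ⟨h0, h1⟩
  refine intervalIntegral.integral_nonneg hal.1 fun β hβ => ?_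
  have hcβ : 0 ≤ cos β := cos_nonneg_of_mem_Icc ⟨by linarith only [hβ.1, pi_pos],
    by linarith only [hβ.2, hal.2]⟩
  (clear * - hcβ; positivity)

theorem S2_nn (hm : 3 ≤ m) {y1 : ℝ} (h0 : 0 ≤ y1) (h1 : y1 < 1) :
    0 ≤ ∫ β in (al (vv m r y1))..(π / 2), sin β ^ 2 * cos β ^ (m - 3) := by
  have hal := aa_mem hr ha (by omega : 1 ≤ m) (y := y1) ⟨h0, h1⟩
  refine intervalIntegral.integral_nonneg hal.2.le fun β hβ => ?_
  have hcβ : 0 ≤ cos β := cos_nonneg_of_mem_Icc ⟨by linarith only [hal.1, hβ.1, pi_pos], hβ.2⟩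
  positivity

/-- The main estimate from the Fisher inequality. -/
theorem cut_bound (hm : 3 ≤ m) (hF : Fish (m + 1) (fun y => r y ^ m)) {y1 : ℝ} (h0 : 0 < y1)
    (h1 : y1 < 1) {r1 : ℝ} (hr1 : 0 ≤ r1) (hle : ∀ y ∈ Ico (0 : ℝ) 1, r1 ≤ r y) :
    (∫ y in (0 : ℝ)..y1, (cZ m / cos (al (vv m r y)) ^ (m + 1) * vd m r y) * r y ^ m) +
      (PP m r al y1 - tan (al (vv m r y1))) * r1 ^ m ≤
      hI m r * √(((m : ℝ) + 1) / ((m : ℝ) - 2) * ((1 + ((m : ℝ) + 1) * (1 - y1)) / y1)) := by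
  have hm1 : 1 ≤ m := by omega
  have hm3 : (3 : ℝ) ≤ m := by exact_mod_cast hm
  have hP := tan_le_PP hr ha hm h0.le h1
  have hIp := hI_pos (m := m) hr
  have hZ := cZ_pos m
  have hap := one_sub_pos (m := m) hr hm1 h0.le h1
  obtain ⟨D, hD⟩ := gh_bdd (P1 := PP m r al y1) hr ha hm1 h0 h1
  have hfish := fish_half (n := m + 1) hF (fun y => by simp only [hr.even])
    (prof_pow_ii hr m ⟨le_rfl, zero_le_one⟩ ⟨zero_le_one, le_rfl⟩)
    (fun y hy => pow_nonneg (prof_nn hr hy) m)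
    (C := r 0 ^ m) (fun y hy => pow_le_pow_left₀ (prof_nn hr hy) (prof_le_zero hr hy) m)
    (ph_zero hr ha h0) (lip_of_right_deriv (ph_cont hr ha hm1 h0 h1)
      (fun y hy => gh_has hr ha hm1 h0 h1 hy) hD)
    (fun y hy => gh_has (P1 := PP m r al y1) hr ha hm1 h0 h1 hy)
  rw [lhs_eq hr ha hm1 h0 h1] at hfish
  have hrhs := rhs_le hr ha hm h0 h1 hP
  have hge : (1 - y1) * r1 ^ m ≤ ∫ y in y1..1, r y ^ m := by
    have h2 : ∫ _ in y1..1, r1 ^ m = (1 - y1) * r1 ^ m := by simp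
    rw [← h2]
    refine intervalIntegral.integral_mono_on_of_le_Ioo h1.le (by simp)
      (prof_pow_ii hr m ⟨h0.le, h1.le⟩ ⟨zero_le_one, le_rfl⟩) fun s hs => ?_
    exact pow_le_pow_left₀ hr1 (hle s ⟨h0.le.trans hs.1.le, hs.2⟩) m
  set A := ∫ y in (0 : ℝ)..y1, (cZ m / cos (al (vv m r y)) ^ (m + 1) * vd m r y) * r y ^ m
    with hA
  have hA0 : 0 ≤ A := by
    rw [hA]
    refine intervalIntegral.integral_nonneg h0.le fun y hy => ?_
    have hy1 : y ∈ Ico (0 : ℝ) 1 := ⟨hy.1, hy.2.trans_lt h1⟩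
    have e1 := vd_nonneg (m := m) hr hy1
    have e2 := aa_cos_pos hr ha hm1 hy1
    have e3 := prof_pos' hr hy1
    (clear * - hZ e2 e1 e3; positivity)
  set t1 := tan (al (vv m r y1)) with ht1
  set P := PP m r al y1 with hPdef
  have hy1 : 0 < 1 - y1 := by linarith only [h1]
  have hd : 0 ≤ P - t1 := by linarith only [hP]
  have hr1m : 0 ≤ r1 ^ m := pow_nonneg hr1 m
  have hlow : A + (P - t1) * r1 ^ m ≤ A + (P - t1) / (1 - y1) * ∫ y in y1..1, r y ^ m := by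
    have : (P - t1) / (1 - y1) * ((1 - y1) * r1 ^ m) ≤
        (P - t1) / (1 - y1) * ∫ y in y1..1, r y ^ m :=
      mul_le_mul_of_nonneg_left hge (div_nonneg hd hy1.le)
    have e : (P - t1) / (1 - y1) * ((1 - y1) * r1 ^ m) = (P - t1) * r1 ^ m := by
      (clear * - hy1; field_simp)
    linarith only [this, e]
  have hL0 : 0 ≤ A + (P - t1) * r1 ^ m := by (clear * - hA0 hP hr1; positivity)
  set S1 := ∫ β in (0 : ℝ)..(al (vv m r y1)), sin β ^ 2 * cos β ^ (m - 3) with hS1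
  set S2 := ∫ β in (al (vv m r y1))..(π / 2), sin β ^ 2 * cos β ^ (m - 3) with hS2
  have hS12 : S1 + S2 = 1 / ((m : ℝ) - 2) * cZ m := S_add hm _
  have hS1n : 0 ≤ S1 := S_nn hr ha hm h0.le h1
  have hS2n : 0 ≤ S2 := S2_nn hr ha hm h0.le h1
  have hPS : P ^ 2 * ((1 - vv m r y1) * cZ m) ≤ S2 := PP_sq_le hr ha hm h0.le h1
  have hone := one_sub_vv (m := m) hr (y := y1) ⟨h0.le, h1.le⟩
  have hf : y1 * r y1 ^ m ≤ ((m : ℝ) + 1) * hI m r * (1 - vv m r y1) := by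
    rw [hone]
    have : 0 ≤ ∫ s in y1..1, r s ^ m := le_trans (by (clear * - h1 hr1; positivity)) hge
    have h2 : 0 ≤ ((m : ℝ) + 1) * ∫ s in y1..1, r s ^ m := by (clear * - hm this; positivity)
    linarith only [h2]
  set κ := (1 + ((m : ℝ) + 1) * (1 - y1)) / y1 with hκ
  have hκ1 : 1 ≤ κ := by
    rw [hκ, le_div_iff₀ h0]
    nlinarith only [h1]
  have hfin : ((m : ℝ) + 1) * hI m r / cZ m * S1 +
      r y1 ^ m * (P ^ 2 * (1 + ((m : ℝ) + 1) * (1 - y1))) ≤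
      hI m r * (((m : ℝ) + 1) / ((m : ℝ) - 2) * κ) := by
    have e1 : r y1 ^ m * (P ^ 2 * (1 + ((m : ℝ) + 1) * (1 - y1))) =
        (y1 * r y1 ^ m) * (P ^ 2 * κ) := by
      rw [hκ]
      (clear * - h0 hm hy1; field_simp)
    have e2 : (y1 * r y1 ^ m) * (P ^ 2 * κ) ≤
        (((m : ℝ) + 1) * hI m r * (1 - vv m r y1)) * (P ^ 2 * κ) :=
      mul_le_mul_of_nonneg_right hf (by (clear * - hm h1 h0; positivity))
    have e3 : (((m : ℝ) + 1) * hI m r * (1 - vv m r y1)) * (P ^ 2 * κ) =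
        ((m : ℝ) + 1) * hI m r / cZ m * κ * (P ^ 2 * ((1 - vv m r y1) * cZ m)) := by
      (clear * - hZ hκ1 hap hIp hm; field_simp)
    have e4 : ((m : ℝ) + 1) * hI m r / cZ m * κ * (P ^ 2 * ((1 - vv m r y1) * cZ m)) ≤
        ((m : ℝ) + 1) * hI m r / cZ m * κ * S2 :=
      mul_le_mul_of_nonneg_left hPS (by positivity)
    have e5 : ((m : ℝ) + 1) * hI m r / cZ m * S1 ≤ ((m : ℝ) + 1) * hI m r / cZ m * κ * S1 := by
      have : 0 ≤ ((m : ℝ) + 1) * hI m r / cZ m * S1 := by (clear * - hm hIp hZ hS1n; positivity)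
      nlinarith only [hκ1, this]
    have e6 : ((m : ℝ) + 1) * hI m r / cZ m * κ * S1 + ((m : ℝ) + 1) * hI m r / cZ m * κ * S2 =
        hI m r * (((m : ℝ) + 1) / ((m : ℝ) - 2) * κ) := by
      rw [← mul_add, hS12]
      have : (m : ℝ) - 2 ≠ 0 := by linarith only [hm3]
      (clear * - hZ this hκ1 hIp hm; field_simp)
    linarith only [e1, e2, e3, e4, e5, e6]
  have hsq : (A + (P - t1) * r1 ^ m) ^ 2 ≤
      hI m r ^ 2 * (((m : ℝ) + 1) / ((m : ℝ) - 2) * κ) := by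
    have e1 : (A + (P - t1) * r1 ^ m) ^ 2 ≤
        (A + (P - t1) / (1 - y1) * ∫ y in y1..1, r y ^ m) ^ 2 := pow_le_pow_left₀ hL0 hlow 2
    have e2 : (∫ y in (0 : ℝ)..1, r y ^ m) = hI m r := rfl
    rw [e2] at hfish
    have e3 := mul_le_mul_of_nonneg_left (hrhs.trans hfin) hIp.le
    calc _ ≤ _ := e1
      _ ≤ _ := hfish
      _ ≤ _ := e3
      _ = _ := by ring
  rw [← Real.sqrt_sq hL0]
  have e7 : hI m r * √(((m : ℝ) + 1) / ((m : ℝ) - 2) * κ) =
      √(hI m r ^ 2 * (((m : ℝ) + 1) / ((m : ℝ) - 2) * κ)) := by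
    rw [Real.sqrt_mul (sq_nonneg (hI m r)), Real.sqrt_sq hIp.le]
  rw [e7]
  exact Real.sqrt_le_sqrt hsq

end Vale.Agent.P237.Alm
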