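import Vale.Agent.P237.Alm.Prof

/-!
# P237, almost Petty: the transported test function
-/

open MeasureTheory Metric Set Module Filter Real
open scoped Topology

namespace Vale.Agent.P237.Alm

open AllN

/-- The half integral of the section function. -/
noncomputable def hI (m : ℕ) (r : ℝ → ℝ) : ℝ := ∫ y in (0 : ℝ)..1, r y ^ m

/-- The half integral of `cos^(m-1)`. -/
noncomputable def cZ (m : ℕ) : ℝ := ∫ β in (0 : ℝ)..(π / 2), cos β ^ (m - 1)

/-- the inverse of the normalised angle function -/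
structure IsAngle (m : ℕ) (al : ℝ → ℝ) : Prop where
  zero : al 0 = 0
  mem : ∀ v ∈ Ico (0 : ℝ) 1, al v ∈ Ico (0 : ℝ) (π / 2)
  mono : MonotoneOn al (Ico (0 : ℝ) 1)
  int : ∀ v ∈ Ico (0 : ℝ) 1, ∫ β in (0 : ℝ)..(al v), cos β ^ (m - 1) = v * cZ m
  cont : ContinuousOn al (Ico (0 : ℝ) 1)
  der : ∀ v ∈ Ioo (0 : ℝ) 1, HasDerivAt al (cZ m / cos (al v) ^ (m - 1)) v

/-- distribution function of the cone measure -/
noncomputable def vv (m : ℕ) (r : ℝ → ℝ) (y : ℝ) : ℝ :=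
  (((m : ℝ) + 1) * (∫ s in (0 : ℝ)..y, r s ^ m) - y * r y ^ m) / (((m : ℝ) + 1) * hI m r)

/-- its density -/
noncomputable def vd (m : ℕ) (r : ℝ → ℝ) (y : ℝ) : ℝ :=
  (m : ℝ) * r y ^ (m - 1) * (r y - y * rd r y) / (((m : ℝ) + 1) * hI m r)

variable {m : ℕ} {r : ℝ → ℝ} (hr : IsProf r)

include hr

theorem hI_pos : 0 < hI m r := by
  unfold hI
  refine intervalIntegral.intervalIntegral_pos_of_pos_on (prof_pow_ii hr m ⟨le_rfl, zero_le_one⟩
    ⟨zero_le_one, le_rfl⟩) (fun y hy => ?_) zero_lt_one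
  exact pow_pos (prof_pos' hr ⟨hy.1.le, hy.2⟩) m

theorem prof_contOn {y1 : ℝ} (h1 : y1 < 1) : ContinuousOn r (Icc 0 y1) :=
  (prof_cont hr).mono fun y hy => ⟨by linarith [hy.1], by linarith [hy.2]⟩

theorem RR_has {y : ℝ} (hy : y ∈ Ioo (0 : ℝ) 1) :
    HasDerivAt (fun y => ∫ s in (0 : ℝ)..y, r s ^ m) (r y ^ m) y := by
  refine intervalIntegral.integral_hasDerivAt_right
    (prof_pow_ii hr m ⟨le_rfl, zero_le_one⟩ ⟨hy.1.le, hy.2.le⟩) ?_ ?_
  · have h1 : ContinuousOn (fun s => r s ^ m) (Ioo (-1) 1) := (prof_cont hr).pow m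
    exact h1.stronglyMeasurableAtFilter isOpen_Ioo y ⟨by linarith [hy.1], hy.2⟩
  · exact (prof_contAt hr ⟨by linarith [hy.1], hy.2⟩).pow m

theorem RR_cont : ContinuousOn (fun y => ∫ s in (0 : ℝ)..y, r s ^ m) (Icc 0 1) := by
  have h := intervalIntegral.continuousOn_primitive_interval (μ := volume) (f := fun s => r s ^ m)
    (a := 0) (b := 1) ?_
  · rwa [uIcc_of_le zero_le_one] at h
  · rw [uIcc_of_le zero_le_one]
    exact (intervalIntegrable_iff_integrableOn_Icc_of_le zero_le_one).1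
      (prof_pow_ii hr m ⟨le_rfl, zero_le_one⟩ ⟨zero_le_one, le_rfl⟩)

omit hr in
theorem vv_zero : vv m r 0 = 0 := by
  unfold vv
  simp

theorem vv_cont : ContinuousOn (vv m r) (Ico 0 1) := by
  unfold vv
  have h1 : ContinuousOn r (Ico 0 1) :=
    (prof_cont hr).mono fun y hy => ⟨by linarith [hy.1], hy.2⟩
  have h2 := (RR_cont (m := m) hr).mono (Ico_subset_Icc_self)
  exact ((continuousOn_const.mul h2).sub (continuousOn_id.mul (h1.pow m))).div_const _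

theorem vv_has (hm : 1 ≤ m) {y : ℝ} (hy : y ∈ Ioo (0 : ℝ) 1) :
    HasDerivWithinAt (vv m r) (vd m r y) (Ioi y) y := by
  have h1 := (RR_has (m := m) hr hy).hasDerivWithinAt (s := Ioi y)
  have h2 := pow_rd hr (y := y) ⟨by linarith [hy.1], hy.2⟩ m
  have h3 := (hasDerivWithinAt_id y (Ioi y)).mul h2
  have h4 := ((h1.const_mul ((m : ℝ) + 1)).sub h3).div_const (((m : ℝ) + 1) * hI m r)
  refine h4.congr_deriv ?_
  unfold vd
  congr 1
  obtain ⟨k, rfl⟩ : ∃ k, m = k + 1 := ⟨m - 1, by omega⟩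
  simp only [Nat.add_sub_cancel, id, one_mul]
  push_cast
  ring

theorem vd_nonneg {y : ℝ} (hy : y ∈ Ico (0 : ℝ) 1) : 0 ≤ vd m r y := by
  unfold vd
  have h1 := (prof_pos' hr hy).le
  have h2 := rd_nonpos hr hy
  have h3 := (hI_pos (m := m) hr).le
  have h4 : 0 ≤ r y - y * rd r y := by
    have := mul_nonneg hy.1 (neg_nonneg.2 h2)
    linarith
  positivity

theorem integral_ge {a b : ℝ} (ha : 0 ≤ a) (hab : a ≤ b) (hb : b ≤ 1) :
    (b - a) * r b ^ m ≤ ∫ s in a..b, r s ^ m := by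
  have h1 : ∫ _ in a..b, r b ^ m = (b - a) * r b ^ m := by simp
  rw [← h1]
  refine intervalIntegral.integral_mono_on hab (by simp) (prof_pow_ii hr m ⟨ha, hab.trans hb⟩
    ⟨ha.trans hab, hb⟩) fun s hs => ?_
  have m1 : s ∈ Icc (0 : ℝ) 1 := ⟨ha.trans hs.1, hs.2.trans hb⟩
  have m2 : b ∈ Icc (0 : ℝ) 1 := ⟨ha.trans hab, hb⟩
  exact pow_le_pow_left₀ (prof_nn hr m2) (prof_anti hr m1 m2 hs.2) m

theorem integral_le {a b : ℝ} (ha : 0 ≤ a) (hab : a ≤ b) (hb : b ≤ 1) :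
    ∫ s in a..b, r s ^ m ≤ (b - a) * r a ^ m := by
  have h1 : ∫ _ in a..b, r a ^ m = (b - a) * r a ^ m := by simp
  rw [← h1]
  refine intervalIntegral.integral_mono_on hab (prof_pow_ii hr m ⟨ha, hab.trans hb⟩
    ⟨ha.trans hab, hb⟩) (by simp) fun s hs => ?_
  have m1 : s ∈ Icc (0 : ℝ) 1 := ⟨ha.trans hs.1, hs.2.trans hb⟩
  have m2 : a ∈ Icc (0 : ℝ) 1 := ⟨ha, hab.trans hb⟩
  exact pow_le_pow_left₀ (prof_nn hr m1) (prof_anti hr m2 m1 hs.1) m

theorem one_sub_vv {y : ℝ} (hy : y ∈ Icc (0 : ℝ) 1) :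
    ((m : ℝ) + 1) * hI m r * (1 - vv m r y) =
      ((m : ℝ) + 1) * (∫ s in y..1, r s ^ m) + y * r y ^ m := by
  have h1 : (∫ s in (0 : ℝ)..y, r s ^ m) + ∫ s in y..1, r s ^ m = hI m r :=
    intervalIntegral.integral_add_adjacent_intervals
      (prof_pow_ii hr m ⟨le_rfl, zero_le_one⟩ hy) (prof_pow_ii hr m hy ⟨zero_le_one, le_rfl⟩)
  have h2 := hI_pos (m := m) hr
  unfold vv
  rw [mul_sub, mul_div_cancel₀ _ (by positivity), ← h1]
  ring

theorem vv_lt_one (hm : 1 ≤ m) {y : ℝ} (hy : y ∈ Ico (0 : ℝ) 1) : vv m r y < 1 := by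
  have h1 := one_sub_vv (m := m) hr (y := y) ⟨hy.1, hy.2.le⟩
  have h2 := hI_pos (m := m) hr
  have h3 : 0 < ((m : ℝ) + 1) * (∫ s in y..1, r s ^ m) + y * r y ^ m := by
    have h4 : 0 < ∫ s in y..1, r s ^ m := by
      refine intervalIntegral.intervalIntegral_pos_of_pos_on (prof_pow_ii hr m ⟨hy.1, hy.2.le⟩
        ⟨zero_le_one, le_rfl⟩) (fun s hs => ?_) hy.2
      exact pow_pos (prof_pos' hr ⟨hy.1.trans hs.1.le, hs.2⟩) m
    have h5 : 0 ≤ y * r y ^ m := mul_nonneg hy.1 (pow_nonneg (prof_pos' hr hy).le m)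
    positivity
  rw [← h1] at h3
  have h6 : 0 < 1 - vv m r y := by
    by_contra hcon
    push Not at hcon
    have := mul_nonpos_of_nonneg_of_nonpos (by positivity : 0 ≤ ((m : ℝ) + 1) * hI m r) hcon
    linarith
  linarith

theorem vv_nonneg {y : ℝ} (hy : y ∈ Icc (0 : ℝ) 1) : 0 ≤ vv m r y := by
  unfold vv
  have h2 := hI_pos (m := m) hr
  have h3 := integral_ge (m := m) hr le_rfl hy.1 hy.2
  rw [sub_zero] at h3
  have h5 : 0 ≤ y * r y ^ m := mul_nonneg hy.1 (pow_nonneg (prof_nn hr hy) m)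
  apply div_nonneg _ (by positivity)
  have hm0 : (0 : ℝ) ≤ m := Nat.cast_nonneg m
  nlinarith

theorem vv_pos (hm : 1 ≤ m) {y : ℝ} (hy : y ∈ Ioo (0 : ℝ) 1) : 0 < vv m r y := by
  unfold vv
  have h2 := hI_pos (m := m) hr
  have h3 := integral_ge (m := m) hr le_rfl hy.1.le hy.2.le
  rw [sub_zero] at h3
  have h5 : 0 < y * r y ^ m := mul_pos hy.1 (pow_pos (prof_pos' hr ⟨hy.1.le, hy.2⟩) m)
  apply div_pos _ (by positivity)
  have hm0 : (1 : ℝ) ≤ m := by exact_mod_cast hm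
  nlinarith

theorem vv_mem (hm : 1 ≤ m) {y : ℝ} (hy : y ∈ Ico (0 : ℝ) 1) : vv m r y ∈ Ico (0 : ℝ) 1 :=
  ⟨vv_nonneg hr ⟨hy.1, hy.2.le⟩, vv_lt_one hr hm hy⟩

/-- `c * vd` is integrable for continuous `c` -/
theorem ii_mul_vd {y1 : ℝ} (h0 : 0 ≤ y1) (h1 : y1 < 1) {c : ℝ → ℝ} (hc : ContinuousOn c (Icc 0 y1)) :
    IntervalIntegrable (fun y => c y * vd m r y) volume 0 y1 := by
  have hrc := prof_contOn hr h1
  have hrd := rd_ii hr (a := 0) (b := y1) ⟨le_rfl, zero_lt_one⟩ ⟨h0, h1⟩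
  have e : (fun y => c y * vd m r y) = fun y =>
      c y * ((m : ℝ) * r y ^ (m - 1) * r y / (((m : ℝ) + 1) * hI m r)) -
      (c y * ((m : ℝ) * r y ^ (m - 1) * y / (((m : ℝ) + 1) * hI m r))) * rd r y := by
    funext y
    unfold vd
    ring
  rw [e]
  refine IntervalIntegrable.sub ?_ ?_
  · apply ContinuousOn.intervalIntegrable
    rw [uIcc_of_le h0]
    exact hc.mul (((continuousOn_const.mul (hrc.pow _)).mul hrc).div_const _)
  · refine hrd.continuousOn_mul ?_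
    rw [uIcc_of_le h0]
    exact hc.mul (((continuousOn_const.mul (hrc.pow _)).mul continuousOn_id).div_const _)

section angle

variable {al : ℝ → ℝ} (ha : IsAngle m al)

include ha

theorem aa_mem (hm : 1 ≤ m) {y : ℝ} (hy : y ∈ Ico (0 : ℝ) 1) :
    al (vv m r y) ∈ Ico (0 : ℝ) (π / 2) := ha.mem _ (vv_mem hr hm hy)

theorem aa_cos_pos (hm : 1 ≤ m) {y : ℝ} (hy : y ∈ Ico (0 : ℝ) 1) : 0 < cos (al (vv m r y)) := by
  have h := aa_mem hr ha hm hy
  exact cos_pos_of_mem_Ioo ⟨by linarith [h.1, pi_pos], h.2⟩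

theorem aa_cont (hm : 1 ≤ m) : ContinuousOn (fun y => al (vv m r y)) (Ico 0 1) :=
  ha.cont.comp (vv_cont hr) fun _ hy => vv_mem hr hm hy

theorem aa_has (hm : 1 ≤ m) {y : ℝ} (hy : y ∈ Ioo (0 : ℝ) 1) :
    HasDerivWithinAt (fun y => al (vv m r y))
      (cZ m / cos (al (vv m r y)) ^ (m - 1) * vd m r y) (Ioi y) y := by
  have h1 := ha.der (vv m r y) ⟨vv_pos hr hm hy, vv_lt_one hr hm ⟨hy.1.le, hy.2⟩⟩
  exact h1.comp_hasDerivWithinAt y (vv_has hr hm hy)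

theorem tan_has (hm : 1 ≤ m) {y : ℝ} (hy : y ∈ Ioo (0 : ℝ) 1) :
    HasDerivWithinAt (fun y => tan (al (vv m r y)))
      (cZ m / cos (al (vv m r y)) ^ (m + 1) * vd m r y) (Ioi y) y := by
  have hc := aa_cos_pos hr ha hm (y := y) ⟨hy.1.le, hy.2⟩
  have h1 := (Real.hasDerivAt_tan hc.ne').comp_hasDerivWithinAt y (aa_has hr ha hm hy)
  refine h1.congr_deriv ?_
  obtain ⟨k, rfl⟩ : ∃ k, m = k + 1 := ⟨m - 1, by omega⟩
  simp only [Nat.add_sub_cancel]
  field_simp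
  ring

theorem tan_cont (hm : 1 ≤ m) : ContinuousOn (fun y => tan (al (vv m r y))) (Ico 0 1) := by
  intro y hy
  have hc := aa_cos_pos hr ha hm hy
  exact ContinuousAt.comp_continuousWithinAt (g := tan) (f := fun y => al (vv m r y))
    (Real.continuousAt_tan.2 hc.ne') (aa_cont hr ha hm y hy)

end angle

end Vale.Agent.P237.Alm
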